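import Vale.Agent.P281.H624.HKT.Lim
import Vale.Agent.P281.H399.HKT.Lin
import Vale.Agent.P281.H167.HessCore

/-!
# P281, project T-HKT, index block (helper624): `ν = ∑ u_j ⊗ conj u_j`
-/

open Set Filter Metric MeasureTheory Vale.Agent.P272.K
open scoped Topology ContDiff ComplexConjugate ComplexOrder Matrix

noncomputable section

namespace Vale.Agent.P281.H624.HKT

open Vale.Agent.P281.H64.TK Vale.Agent.P281.H64.TK.TS Vale.Agent.P272.K.C2
open Vale.Agent.P281.H83.HK Vale.Agent.P281.H624.TS Vale.Agent.P281.H624.HK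
open Vale.Agent.P281.H83.HKT (thj lst W4 bT Hol1 GenU uu)

/-! ### Pointwise -/

section pt

variable {d a : ℕ}

/-- `(x, y, v_0, .., v_(a-1), c, .., c)`. -/
def lv (x y c : L2 d) (v : Fin a → L2 d) (i : Fin d) : L2 d :=
  if i.val = 0 then x else if i.val = 1 then y else
    if h : i.val - 2 < a then v ⟨i.val - 2, h⟩ else c

theorem lv_update [DecidableEq (Fin a)] (ha : a + 2 ≤ d) (x y c : L2 d) (v : Fin a → L2 d)
    (j : Fin a) (p : L2 d) : lv x y c (Function.update v j p) =
      Function.update (lv x y c v) (⟨j.val + 2, by omega⟩ : Fin d) p := by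
  funext i
  by_cases h : i = (⟨j.val + 2, by omega⟩ : Fin d)
  · subst h
    rw [Function.update_self]
    have h1 : j.val + 2 - 2 < a := by omega
    simp only [lv]
    rw [if_neg (by omega), if_neg (by omega), dif_pos h1]
    have : (⟨j.val + 2 - 2, h1⟩ : Fin a) = j := Fin.ext (by simp)
    rw [this, Function.update_self]
  · rw [Function.update_of_ne h]
    have h' : i.val ≠ j.val + 2 := fun h' => h (Fin.ext h')
    simp only [lv]
    split_ifs with h1 h2 h3
    · rfl
    · rfl
    · rw [Function.update_of_ne]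
      intro h4
      have h5 : i.val - 2 = j.val := congrArg Fin.val h4
      omega
    · rfl

/-- `W (lv x y c v)` is multilinear in `v`. -/
def Wml (hW : WLinStmt) (ha : a + 2 ≤ d) (x y c : L2 d) :
    MultilinearMap ℂ (fun _ : Fin a => L2 d) ℂ where
  toFun v := W (lv x y c v)
  map_update_add' v j p q := by
    rw [lv_update ha, lv_update ha, lv_update ha]
    exact (hW d _ _ p q 0 1).1
  map_update_smul' v j r p := by
    rw [lv_update ha, lv_update ha]
    exact (hW d _ _ p 0 r 1).2.1

theorem ml_sum {V : Type} [AddCommMonoid V] [Module ℂ V]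
    (f : MultilinearMap ℂ (fun _ : Fin a => V) ℂ) (θ : Fin a → V) :
    f (fun _ => ∑ j, θ j) = ∑ r : Fin a → Fin a, f fun i => θ (r i) :=
  f.map_sum fun _ j => θ j

/-- The matrix of the choice `r`. -/
def mr (r : Fin a → Fin a) : Matrix (Fin a) (Fin a) ℂ :=
  Matrix.of fun i j => if j = r i then 1 else 0

theorem mr_mul (r : Fin a → Fin a) (u : Matrix (Fin a) (Fin d) ℂ) (i : Fin a) (k : Fin d) :
    (mr r * u) i k = u (r i) k := by
  rw [Matrix.mul_apply]
  simp [mr]

theorem thj_mr (r : Fin a → Fin a) (u : Matrix (Fin a) (Fin d) ℂ) (i : Fin a) :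
    thj (mr r * u) i = thj u (r i) := by
  rw [thj, thj]
  congr 1
  ext k l
  simp only [Matrix.of_apply, mr_mul]

/-- The constant (it is `a!`). -/
def Ka (a : ℕ) : ℝ := ∑ r : Fin a → Fin a, ‖(mr r).det‖ ^ 2

theorem Ka_pos (a : ℕ) : 0 < Ka a := by
  have h1 : (0 : ℝ) < ‖(mr (id : Fin a → Fin a)).det‖ ^ 2 := by
    have : mr (id : Fin a → Fin a) = 1 := by
      ext i j
      simp only [mr, Matrix.of_apply, id, Matrix.one_apply]
      by_cases h : i = j
      · rw [if_pos h, if_pos h.symm]
      · rw [if_neg h, if_neg (Ne.symm h)]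
    rw [this, Matrix.det_one]
    norm_num
  refine lt_of_lt_of_le h1 ?_
  exact Finset.single_le_sum (f := fun r : Fin a → Fin a => ‖(mr r).det‖ ^ 2)
    (fun r _ => sq_nonneg _) (Finset.mem_univ _)

/-- `∑ u_j ⊗ conj u_j`. -/
def nu (u : Matrix (Fin a) (Fin d) ℂ) : Matrix (Fin d) (Fin d) ℂ := uᵀ * u.map conj

theorem nu_apply (u : Matrix (Fin a) (Fin d) ℂ) (k l : Fin d) :
    nu u k l = ∑ j, u j k * conj (u j l) := by
  rw [nu, Matrix.mul_apply]
  rfl

/-- `kf`, as a linear map. -/
def kfl : Matrix (Fin d) (Fin d) ℂ →ₗ[ℂ] L2 d where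
  toFun := kf
  map_add' := kf_add'
  map_smul' := kf_smul'

theorem kf_nu (u : Matrix (Fin a) (Fin d) ℂ) : kf (nu u) = ∑ j, thj u j := by
  have e : nu u = ∑ j, Matrix.of fun k l => u j k * conj (u j l) := by
    ext k l
    rw [nu_apply, Matrix.sum_apply]
    rfl
  have h : kfl (nu u) = ∑ j, kfl (Matrix.of fun k l => u j k * conj (u j l)) := by
    rw [e, map_sum]
  exact h

theorem vm_nu (hW : WLinStmt) (ha : a + 2 ≤ d) (u : Matrix (Fin a) (Fin d) ℂ) (x y c : L2 d) :
    W (vm x y c (kf (nu u)) a) = (Ka a : ℂ) * W4 u x y c := by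
  have e1 : W (vm x y c (kf (nu u)) a) = Wml hW ha x y c (fun _ => ∑ j, thj u j) := by
    rw [kf_nu]
    change _ = W (lv x y c fun _ => ∑ j, thj u j)
    congr 1
    funext l
    simp only [vm, lv]
    split_ifs <;> first | rfl | omega
  rw [e1, ml_sum, Ka]
  push_cast
  rw [Finset.sum_mul]
  refine Finset.sum_congr rfl fun r _ => ?_
  have e2 := H399.HKT.W4_mul ha (mr r) u x y c
  push_cast at e2
  rw [← e2]
  change W (lv x y c fun i => thj u (r i)) = W (lst (mr r * u) x y c)
  congr 1
  funext l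
  simp only [lv, lst, thj_mr]

end pt

variable {d a : ℕ} {E Γ : Type} [TopologicalSpace E] [Group Γ] [MulAction Γ E] {S : Sheets d E Γ}
variable {w : Fin S.N → Cm d → Matrix (Fin d) (Fin d) ℂ}
  {u : Fin S.N → Cm d → Matrix (Fin a) (Fin d) ℂ}

theorem sem_nu [Subsingleton Γ] (hu : Hol1 S u) : Sem S a (fun i z => nu (u i z)) where
  smooth i j k := by
    have hs : ∀ r l, ContDiffOn ℝ ∞ (fun z => u i z r l) (ball 0 3) := fun r l z hz =>
      (((MF.analyticAt_of_differentiableOn isOpen_ball (hu.hol i r l) hz).contDiffAt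
        (n := ∞)).restrict_scalars ℝ).contDiffWithinAt
    have : (fun z => nu (u i z) j k) = fun z => ∑ r, u i z r j * conj (u i z r k) := by
      funext z
      exact nu_apply _ _ _
    rw [this]
    refine ContDiffOn.sum fun r _ => (hs r j).mul ?_
    exact (Complex.conjCLE.contDiff.comp_contDiffOn (hs r k))
  psd i z hz := by
    have h := Matrix.posSemidef_self_mul_conjTranspose (u i z)ᵀ
    exact h
  rank i z hz := by
    refine (Matrix.rank_mul_le_left _ _).trans ?_
    exact (Matrix.rank_le_width _)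
  closed i z hz j k l := by
    have hd : ∀ r m, DifferentiableAt ℂ (fun z => u i z r m) z := fun r m =>
      (hu.hol i r m).differentiableAt (isOpen_ball.mem_nhds hz)
    have e : ∀ j k l, dz l (fun z => nu (u i z) j k) z =
        ∑ r, dd l (fun z => u i z r j) z * conj (u i z r k) := by
      intro j k l
      have e1 : (fun z => nu (u i z) j k) = fun z => ∑ r, u i z r j * conj (u i z r k) := by
        funext z
        exact nu_apply _ _ _
      rw [e1, dz_sum l Finset.univ (F := fun r y => u i y r j * conj (u i y r k)) fun r _ =>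
        (H167.real_diff (hd r j)).mul (H167.conj_diff (hd r k))]
      refine Finset.sum_congr rfl fun r _ => ?_
      rw [dz_mul l (H167.real_diff (hd r j)) (H167.conj_diff (hd r k)),
        H167.dz_conj_hol (hd r k), H167.dz_hol (hd r j), mul_zero, add_zero]
      rfl
    rw [e, e]
    exact Finset.sum_congr rfl fun r _ => by rw [hu.closed i z hz r l j]
  change i j z hz z' hz' γ θ h1 h2 h3 := by
    have h4 : ∀ᶠ y in 𝓝 z, S.σ i y = S.σ j (θ y) := by
      filter_upwards [h3] with y hy
      rw [hy, Subsingleton.elim γ 1, one_smul]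
    rw [nu, hu.change i j z hz z' hz' θ h1 h2 h4, nu, Matrix.transpose_mul, Matrix.map_mul]
    simp only [Matrix.mul_assoc]

theorem q_bT (hW : WLinStmt) (ha : a + 2 ≤ d) (x y : Fin S.N → Cm d → L2 d) :
    qI S w (fun i z => nu (u i z)) a x y = (Ka a : ℂ) * bT S u x y (kw w) := by
  rw [qI, bT, ← int_mul]
  exact int_congr fun i z _ => vm_nu hW ha _ _ _ _

end Vale.Agent.P281.H624.HKT
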