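import Vale.Agent.P281.H624.HKT.Mul

/-!
# P281, project T-HKT, index block (helper624): simultaneous diagonalisation
-/

open Set Filter Metric MeasureTheory Vale.Agent.P272.K
open scoped Topology ContDiff ComplexConjugate ComplexOrder Matrix

noncomputable section

namespace Vale.Agent.P281.H624.HKT

open Vale.Agent.P281.H64.TK Vale.Agent.P281.H64.TK.TS Vale.Agent.P272.K.C2
open Vale.Agent.P281.H83.HK Vale.Agent.P281.H624.TS Vale.Agent.P281.H624.HK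

variable {d : ℕ}

/-- The diagonal matrix of real numbers. -/
def dg (lam : Fin d → ℝ) : Matrix (Fin d) (Fin d) ℂ := Matrix.diagonal fun l => (lam l : ℂ)

theorem sim {w ν : Matrix (Fin d) (Fin d) ℂ} (hw : w.PosDef) (hν : ν.PosSemidef) :
    ∃ (P Q : Matrix (Fin d) (Fin d) ℂ) (lam : Fin d → ℝ), P * Q = 1 ∧ Q * P = 1 ∧
      w = Pᴴ * P ∧ ν = Pᴴ * dg lam * P ∧ (∀ l, 0 ≤ lam l) ∧
      (Finset.univ.filter fun l => lam l ≠ 0).card = ν.rank := by
  obtain ⟨B, hB, b1, b2, -, -, -⟩ := exists_root hw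
  set C := B⁻¹ with hC
  have b1' : Bᴴ * Cᴴ = 1 := by
    rw [← Matrix.conjTranspose_mul, b1, Matrix.conjTranspose_one]
  have hM : (Cᴴ * ν * C).PosSemidef := hν.conjTranspose_mul_mul_same C
  set M := Cᴴ * ν * C with hMd
  set U : Matrix (Fin d) (Fin d) ℂ := (hM.1.eigenvectorUnitary : Matrix (Fin d) (Fin d) ℂ) with hU
  have u1 : star U * U = 1 := Unitary.coe_star_mul_self hM.1.eigenvectorUnitary
  have u2 : U * star U = 1 := Unitary.coe_mul_star_self hM.1.eigenvectorUnitary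
  have hs : M = U * dg hM.1.eigenvalues * star U := by
    have := hM.1.spectral_theorem
    rw [Unitary.conjStarAlgAut_apply] at this
    exact this
  have e2 : ν = Bᴴ * M * B := by
    rw [hMd]
    have : Bᴴ * (Cᴴ * ν * C) * B = (Bᴴ * Cᴴ) * ν * (C * B) := by
      simp only [Matrix.mul_assoc]
    rw [this, b1', b1, one_mul, mul_one]
  refine ⟨star U * B, C * U, hM.1.eigenvalues, ?_, ?_, ?_, ?_, hM.eigenvalues_nonneg, ?_⟩
  · have : star U * B * (C * U) = star U * (B * C) * U := by simp only [Matrix.mul_assoc]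
    rw [this, b2, mul_one, u1]
  · have : C * U * (star U * B) = C * (U * star U) * B := by simp only [Matrix.mul_assoc]
    rw [this, u2, mul_one, b1]
  · rw [Matrix.conjTranspose_mul, ← Matrix.star_eq_conjTranspose (star U), star_star]
    have : Bᴴ * U * (star U * B) = Bᴴ * (U * star U) * B := by simp only [Matrix.mul_assoc]
    rw [this, u2, mul_one, hB]
  · rw [Matrix.conjTranspose_mul, ← Matrix.star_eq_conjTranspose (star U), star_star]
    conv_lhs => rw [e2, hs]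
    simp only [Matrix.mul_assoc]
  · have r1 : ν.rank = M.rank := by
      have hBu : IsUnit B.det := isUnit_iff_ne_zero.2 fun h => by
        have := congrArg Matrix.det b2
        rw [Matrix.det_mul, h, zero_mul, Matrix.det_one] at this
        exact zero_ne_one this
      have hBu' : IsUnit Bᴴ.det := by
        rw [Matrix.det_conjTranspose]
        exact hBu.star
      rw [e2, Matrix.rank_mul_eq_left_of_isUnit_det _ _ hBu,
        Matrix.rank_mul_eq_right_of_isUnit_det _ _ hBu']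
    rw [r1, hM.1.rank_eq_card_non_zero_eigs, Fintype.card_subtype]

theorem tr_diag (μ : Fin d → ℂ) (M N : Matrix (Fin d) (Fin d) ℂ) :
    (Matrix.diagonal μ * M * (Matrix.diagonal μ * N)).trace =
      ∑ j, ∑ k, μ j * μ k * (M j k * N k j) := by
  simp only [Matrix.trace, Matrix.diag, Matrix.mul_apply, Matrix.diagonal_mul]
  refine Finset.sum_congr rfl fun j _ => Finset.sum_congr rfl fun k _ => ?_
  have e : ∀ (A : Matrix (Fin d) (Fin d) ℂ) (a b : Fin d),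
      ∑ l, Matrix.diagonal μ a l * A l b = μ a * A a b := by
    intro A a b
    rw [Finset.sum_eq_single a]
    · rw [Matrix.diagonal_apply_eq]
    · intro l _ hl
      rw [Matrix.diagonal_apply_ne _ hl.symm, zero_mul]
    · simp
  rw [e, e]
  ring

/-- The coefficients. -/
def tt (Q : Matrix (Fin d) (Fin d) ℂ) (x y : L2 d) (j k : Fin d) : ℂ :=
  (Qᴴ * hm x * Q) j j * (Qᴴ * hm y * Q) k k - (Qᴴ * hm x * Q) j k * (Qᴴ * hm y * Q) k j +
    2 * ((Qᴴ * c20 x * Qᴴᵀ) j k * (Qᵀ * (c02 y)ᵀ * Q) k j) +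
    2 * ((Qᴴ * c20 y * Qᴴᵀ) j k * (Qᵀ * (c02 x)ᵀ * Q) k j)

theorem tt_self (Q : Matrix (Fin d) (Fin d) ℂ) {x y : L2 d} (hx : ∀ u v, x u v = - x v u)
    (hy : ∀ u v, y u v = - y v u) (j : Fin d) : tt Q x y j j = 0 := by
  have e : ∀ z : L2 d, (∀ u v, z u v = - z v u) → (Qᴴ * c20 z * Qᴴᵀ) j j = 0 := by
    intro z hz
    have h1 : (Qᴴ * c20 z * Qᴴᵀ)ᵀ = -(Qᴴ * c20 z * Qᴴᵀ) := by
      rw [Matrix.transpose_mul, Matrix.transpose_mul, Matrix.transpose_transpose, c20_skew hz,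
        ← Matrix.mul_assoc, Matrix.mul_neg, Matrix.neg_mul]
    have h2 := congrFun (congrFun h1 j) j
    rw [Matrix.transpose_apply, Matrix.neg_apply] at h2
    have h3 : (2 : ℂ) * (Qᴴ * c20 z * Qᴴᵀ) j j = 0 := by linear_combination h2
    exact (mul_eq_zero.1 h3).resolve_left two_ne_zero
  rw [tt, e x hx, e y hy]
  ring

theorem prod_two (μ : Fin d → ℂ) (hμ : ∀ l, μ l ≠ 0) {j k : Fin d} (hjk : k ≠ j) :
    (∏ l, μ l) * ((μ j)⁻¹ * (μ k)⁻¹) = ∏ l ∈ (Finset.univ.erase j).erase k, μ l := by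
  rw [← Finset.mul_prod_erase Finset.univ μ (Finset.mem_univ j),
    ← Finset.mul_prod_erase (Finset.univ.erase j) μ
      (Finset.mem_erase.2 ⟨hjk, Finset.mem_univ k⟩)]
  have h1 := hμ j
  have h2 := hμ k
  field_simp

/-- `W3` at a diagonalised metric. -/
theorem W3_diag (hV : WValStmt) (h2 : 2 ≤ d) {P Q : Matrix (Fin d) (Fin d) ℂ} (hPQ : P * Q = 1)
    (hQP : Q * P = 1) {μ : Fin d → ℝ} (hμ : ∀ l, 0 < μ l) (hA : (Pᴴ * dg μ * P).PosDef)
    {x y : L2 d} (hx : ∀ u v, x u v = - x v u) (hy : ∀ u v, y u v = - y v u) :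
    W3 x y (kf (Pᴴ * dg μ * P)) = ∑ j, ∑ k ∈ Finset.univ.erase j,
      ((d - 2).factorial : ℂ) * (conj P.det * P.det) * tt Q x y j k *
        ∏ l ∈ (Finset.univ.erase j).erase k, (μ l : ℂ) := by
  have hμ0 : ∀ l, (μ l : ℂ) ≠ 0 := fun l => by exact_mod_cast (hμ l).ne'
  set D : Matrix (Fin d) (Fin d) ℂ := Matrix.diagonal fun l => ((μ l : ℂ))⁻¹ with hD
  have hDD : dg μ * D = 1 := by
    rw [dg, hD, Matrix.diagonal_mul_diagonal, ← Matrix.diagonal_one]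
    congr 1
    funext l
    exact mul_inv_cancel₀ (hμ0 l)
  have hinv : (Pᴴ * dg μ * P)⁻¹ = Q * D * Qᴴ := by
    refine Matrix.inv_eq_right_inv ?_
    have : Pᴴ * dg μ * P * (Q * D * Qᴴ) = Pᴴ * (dg μ * (P * Q) * D) * Qᴴ := by
      simp only [Matrix.mul_assoc]
    rw [this, hPQ, mul_one, hDD, mul_one, ← Matrix.conjTranspose_mul, hQP,
      Matrix.conjTranspose_one]
  have hDt : Dᵀ = D := by rw [hD, Matrix.diagonal_transpose]
  have hdet : (Pᴴ * dg μ * P).det = conj P.det * P.det * ∏ l, (μ l : ℂ) := by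
    rw [Matrix.det_mul, Matrix.det_mul, Matrix.det_conjTranspose, dg, Matrix.det_diagonal]
    simp only [Complex.star_def]
    ring
  have t1 : ∀ X : Matrix (Fin d) (Fin d) ℂ, ((Pᴴ * dg μ * P)⁻¹ * X).trace =
      ∑ j, ((μ j : ℂ))⁻¹ * (Qᴴ * X * Q) j j := by
    intro X
    rw [hinv]
    have : Q * D * Qᴴ * X = Q * (D * (Qᴴ * X)) := by simp only [Matrix.mul_assoc]
    rw [this, Matrix.trace_mul_comm, Matrix.mul_assoc, hD]
    simp only [Matrix.trace, Matrix.diag, Matrix.diagonal_mul]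
  have t2 : ∀ X Y : Matrix (Fin d) (Fin d) ℂ,
      ((Pᴴ * dg μ * P)⁻¹ * X * ((Pᴴ * dg μ * P)⁻¹ * Y)).trace =
      ∑ j, ∑ k, ((μ j : ℂ))⁻¹ * ((μ k : ℂ))⁻¹ * ((Qᴴ * X * Q) j k * (Qᴴ * Y * Q) k j) := by
    intro X Y
    rw [hinv]
    have : Q * D * Qᴴ * X * (Q * D * Qᴴ * Y) = Q * (D * (Qᴴ * X * Q) * (D * (Qᴴ * Y))) := by
      simp only [Matrix.mul_assoc]
    rw [this, Matrix.trace_mul_comm]
    have : D * (Qᴴ * X * Q) * (D * (Qᴴ * Y)) * Q = D * (Qᴴ * X * Q) * (D * (Qᴴ * Y * Q)) := by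
      simp only [Matrix.mul_assoc]
    rw [this, hD, tr_diag]
  have t3 : ∀ X Y : Matrix (Fin d) (Fin d) ℂ,
      ((Pᴴ * dg μ * P)⁻¹ * X * ((Pᴴ * dg μ * P)⁻¹)ᵀ * Y).trace =
      ∑ j, ∑ k, ((μ j : ℂ))⁻¹ * ((μ k : ℂ))⁻¹ * ((Qᴴ * X * Qᴴᵀ) j k * (Qᵀ * Y * Q) k j) := by
    intro X Y
    rw [hinv, Matrix.transpose_mul, Matrix.transpose_mul, hDt]
    have : Q * D * Qᴴ * X * (Qᴴᵀ * (D * Qᵀ)) * Y =
        Q * (D * (Qᴴ * X * Qᴴᵀ) * (D * (Qᵀ * Y))) := by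
      simp only [Matrix.mul_assoc]
    rw [this, Matrix.trace_mul_comm]
    have : D * (Qᴴ * X * Qᴴᵀ) * (D * (Qᵀ * Y)) * Q =
        D * (Qᴴ * X * Qᴴᵀ) * (D * (Qᵀ * Y * Q)) := by
      simp only [Matrix.mul_assoc]
    rw [this, hD, tr_diag]
  have key := hV d x y (Pᴴ * dg μ * P) h2 hx hy hA
  rw [h11_eq, h11_eq] at key
  rw [t1, t1, t2, t3, t3, hdet] at key
  rw [key, Finset.sum_mul_sum]
  have e1 : (∑ j, ∑ k, (((μ j : ℂ))⁻¹ * (Qᴴ * hm x * Q) j j) *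
      (((μ k : ℂ))⁻¹ * (Qᴴ * hm y * Q) k k)) -
      (∑ j, ∑ k, ((μ j : ℂ))⁻¹ * ((μ k : ℂ))⁻¹ *
        ((Qᴴ * hm x * Q) j k * (Qᴴ * hm y * Q) k j)) +
      2 * (∑ j, ∑ k, ((μ j : ℂ))⁻¹ * ((μ k : ℂ))⁻¹ *
        ((Qᴴ * c20 x * Qᴴᵀ) j k * (Qᵀ * (c02 y)ᵀ * Q) k j)) +
      2 * (∑ j, ∑ k, ((μ j : ℂ))⁻¹ * ((μ k : ℂ))⁻¹ *
        ((Qᴴ * c20 y * Qᴴᵀ) j k * (Qᵀ * (c02 x)ᵀ * Q) k j)) =
      ∑ j, ∑ k, ((μ j : ℂ))⁻¹ * ((μ k : ℂ))⁻¹ * tt Q x y j k := by
    simp only [Finset.mul_sum, ← Finset.sum_sub_distrib, ← Finset.sum_add_distrib]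
    refine Finset.sum_congr rfl fun j _ => Finset.sum_congr rfl fun k _ => ?_
    rw [tt]
    ring
  rw [e1, Finset.mul_sum]
  refine Finset.sum_congr rfl fun j _ => ?_
  rw [← Finset.add_sum_erase Finset.univ _ (Finset.mem_univ j), tt_self Q hx hy j, mul_zero,
    zero_add, Finset.mul_sum]
  refine Finset.sum_congr rfl fun k hk => ?_
  rw [← prod_two (fun l => (μ l : ℂ)) hμ0 (Finset.mem_erase.1 hk).1]
  ring

end Vale.Agent.P281.H624.HKT
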