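import Vale.Agent.P281.H624.HKT.Ineq

/-!
# P281, project T-HKT, index block (helper624): the forms `∫ x ∧ y ∧ ν^m ∧ w^(d-2-m)`
-/

open Set Filter Metric MeasureTheory Vale.Agent.P272.K
open scoped Topology ContDiff ComplexConjugate ComplexOrder Matrix

noncomputable section

namespace Vale.Agent.P281.H624.HKT

open Vale.Agent.P281.H64.TK Vale.Agent.P281.H64.TK.TS Vale.Agent.P272.K.C2
open Vale.Agent.P281.H83.HK Vale.Agent.P281.H624.TS Vale.Agent.P281.H624.HK

/-! ### Pointwise -/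

section pt

variable {d : ℕ}

theorem vm_upd (h2 : 2 ≤ d) (x x' y c n : L2 d) (m : ℕ) :
    Function.update (vm x y c n m) (⟨0, by omega⟩ : Fin d) x' = vm x' y c n m := by
  funext l
  by_cases h : l = (⟨0, by omega⟩ : Fin d)
  · subst h
    rw [Function.update_self]
    simp [vm]
  · rw [Function.update_of_ne h]
    have h' : l.val ≠ 0 := fun h' => h (Fin.ext h')
    simp [vm, h']

theorem vm_add (hW : WLinStmt) (h2 : 2 ≤ d) (x x' y c n : L2 d) (m : ℕ) :
    W (vm (x + x') y c n m) = W (vm x y c n m) + W (vm x' y c n m) := by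
  have h := (hW d (vm x y c n m) (⟨0, by omega⟩ : Fin d) x x' 0 1).1
  rwa [vm_upd h2, vm_upd h2, vm_upd h2] at h

theorem vm_smul (hW : WLinStmt) (h2 : 2 ≤ d) (r : ℂ) (x y c n : L2 d) (m : ℕ) :
    W (vm (r • x) y c n m) = r * W (vm x y c n m) := by
  have h := (hW d (vm x y c n m) (⟨0, by omega⟩ : Fin d) x 0 r 1).2.1
  rwa [vm_upd h2, vm_upd h2] at h

theorem vm_add2 (hW : WLinStmt) (h2 : 2 ≤ d) (x y y' c n : L2 d) (m : ℕ) :
    W (vm x (y + y') c n m) = W (vm x y c n m) + W (vm x y' c n m) := by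
  rw [vm_comm hW h2, vm_add hW h2, vm_comm hW h2 y, vm_comm hW h2 y']

theorem vm_smul2 (hW : WLinStmt) (h2 : 2 ≤ d) (r : ℂ) (x y c n : L2 d) (m : ℕ) :
    W (vm x (r • y) c n m) = r * W (vm x y c n m) := by
  rw [vm_comm hW h2, vm_smul hW h2, vm_comm hW h2 y]

theorem vm_c20 (hW : WLinStmt) (hV : WValStmt) (h2 : 2 ≤ d) {w ν : Matrix (Fin d) (Fin d) ℂ}
    (hw : w.PosDef) (hν : ν.PosSemidef) {s : Matrix (Fin d) (Fin d) ℂ} (hs : sᵀ = -s)
    {α : L2 d} (hα : ∀ u v, α u v = - α v u) {i : ℕ} (hi : i ≤ d - 2) :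
    W (vm α (cj (tf s)) (kf w) (kf ν) i) =
      W (vm (tf (c20 α)) (cj (tf s)) (kf w) (kf ν) i) := by
  obtain ⟨P, Q, lam, p1, p2, p3, p4, p5, p6⟩ := sim hw hν
  have h := vm_coeff hW hV h2 hw hν p1 p2 p3 p4 p5 hα (cj_skew (tf_skew hs)) hi
  have h' := vm_coeff hW hV h2 hw hν p1 p2 p3 p4 p5 (tf_skew (c20_skew hα))
    (cj_skew (tf_skew hs)) hi
  refine mul_left_cancel₀ (choose_ne h2 hi) ?_
  rw [h, h']
  refine Finset.sum_congr rfl fun j _ => Finset.sum_congr rfl fun k _ => ?_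
  have e : tt Q α (cj (tf s)) j k = tt Q (tf (c20 α)) (cj (tf s)) j k := by
    rw [tt, tt, hm_cj, c20_cj, c02_tf, c20_tf]
    simp
  rw [e]

/-- The inequality of the means. -/
theorem amgm (hW : WLinStmt) (hV : WValStmt) (h2 : 2 ≤ d) {w ν : Matrix (Fin d) (Fin d) ℂ}
    (hw : w.PosDef) (hν : ν.PosSemidef) {s : Matrix (Fin d) (Fin d) ℂ} (hs : sᵀ = -s)
    {α : L2 d} (hα : ∀ u v, α u v = - α v u) {i : ℕ} (hi : i ≤ d - 2) :
    2 * (W (vm α (cj (tf s)) (kf w) (kf ν) i)).re ≤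
      (W (vm (tf (c20 α)) (cj (tf (c20 α))) (kf w) (kf ν) i)).re +
      (W (vm (tf s) (cj (tf s)) (kf w) (kf ν) i)).re := by
  rw [vm_c20 hW hV h2 hw hν hs hα hi]
  set u := c20 α with hu
  have hus : uᵀ = -u := c20_skew hα
  have hsk : (u + (-1 : ℂ) • s)ᵀ = -(u + (-1 : ℂ) • s) := by
    rw [Matrix.transpose_add, Matrix.transpose_smul, hus, hs, smul_neg, neg_add]
  have hp := vm_pos20 hW hV h2 hw hν hsk hi
  have e1 : tf (u + (-1 : ℂ) • s) = tf u + (-1 : ℂ) • tf s := by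
    ext x y
    rw [add_apply, add_apply, smul_apply, smul_apply, tf_apply, tf_apply, tf_apply, smul_eq_mul,
      Finset.mul_sum, ← Finset.sum_add_distrib]
    refine Finset.sum_congr rfl fun j _ => ?_
    rw [Finset.mul_sum, ← Finset.sum_add_distrib]
    refine Finset.sum_congr rfl fun k _ => ?_
    rw [Matrix.add_apply, Matrix.smul_apply, smul_eq_mul]
    ring
  have e2 : cj (tf u + (-1 : ℂ) • tf s) = cj (tf u) + (-1 : ℂ) • cj (tf s) := by
    ext x y
    rw [cj_apply, add_apply, add_apply, add_apply, add_apply, smul_apply, smul_apply, smul_apply,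
      smul_apply, cj_apply, cj_apply, map_add]
    simp
  rw [e1, e2, vm_add hW h2, vm_smul hW h2, vm_add2 hW h2, vm_add2 hW h2, vm_smul2 hW h2,
    vm_smul2 hW h2] at hp
  have hc : W (vm (tf s) (cj (tf u)) (kf w) (kf ν) i) =
      conj (W (vm (tf u) (cj (tf s)) (kf w) (kf ν) i)) := by
    rw [← vm_cj _ _ hw.1 hν.1, cj_cj, vm_comm hW h2]
  rw [hc] at hp
  have hr := (Complex.nonneg_iff.1 hp).1
  simp only [Complex.add_re, Complex.mul_re, Complex.neg_re, Complex.one_re, Complex.neg_im,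
    Complex.one_im, Complex.conj_re] at hr
  linarith

/-- The expansion of `W3` at `ε w + ν`. -/
theorem W3_pencil (hW : WLinStmt) (hV : WValStmt) {a : ℕ} (ha : a + 2 ≤ d)
    {w ν : Matrix (Fin d) (Fin d) ℂ} (hw : w.PosDef) (hν : ν.PosSemidef) (hr : ν.rank ≤ a)
    {x y : L2 d} (hx : ∀ u v, x u v = - x v u) (hy : ∀ u v, y u v = - y v u) (ε : ℂ) :
    W3 x y (kf (ε • w + ν)) = ε ^ (d - 2 - a) * ∑ i ∈ Finset.range (a + 1),
      ((d - 2).choose i : ℂ) * ε ^ (a - i) * W (vm x y (kf w) (kf ν) i) := by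
  rw [kf_add', kf_smul', W3_exp hW (by omega), Finset.mul_sum]
  symm
  refine (Finset.sum_congr rfl fun i hi => ?_).trans
    (Finset.sum_subset (Finset.range_subset_range.2 (by omega)) fun i hi hi' => ?_)
  · have := Finset.mem_range.1 hi
    have e : d - 2 - i = (d - 2 - a) + (a - i) := by omega
    rw [e, pow_add]
    ring
  · have h1 := Finset.mem_range.1 hi
    have h2 : ¬ i < a + 1 := fun h => hi' (Finset.mem_range.2 h)
    rw [vm_zero hW hV (by omega) hw hν hr hx hy (by omega) (by omega), mul_zero]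

theorem cont_vm {x y c n : Cm d → L2 d} {V : Set (Cm d)} (hx : ContinuousOn x V)
    (hy : ContinuousOn y V) (hc : ContinuousOn c V) (hn : ContinuousOn n V) (m : ℕ) :
    ContinuousOn (fun z => W (vm (x z) (y z) (c z) (n z) m)) V := by
  have h : ContinuousOn (fun z => H864.HK.W fun k => vm (x z) (y z) (c z) (n z) m k) V := by
    refine H864.HK.cont_W fun k => ?_
    unfold vm
    split_ifs
    · exact hx
    · exact hy
    · exact hn
    · exact hc
  refine h.congr fun z _ => ?_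
  rw [H864.HK.W_eq]

/-- `tf`, as a linear map. -/
def tfl : Matrix (Fin d) (Fin d) ℂ →ₗ[ℝ] L2 d where
  toFun := tf
  map_add' a b := by
    ext x y
    rw [add_apply, add_apply, tf_apply, tf_apply, tf_apply, ← Finset.sum_add_distrib]
    refine Finset.sum_congr rfl fun j _ => ?_
    rw [← Finset.sum_add_distrib]
    exact Finset.sum_congr rfl fun k _ => by rw [Matrix.add_apply]; ring
  map_smul' r a := by
    ext x y
    rw [RingHom.id_apply, smul_apply, smul_apply, tf_apply, tf_apply, Complex.real_smul,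
      Finset.mul_sum]
    refine Finset.sum_congr rfl fun j _ => ?_
    rw [Finset.mul_sum]
    exact Finset.sum_congr rfl fun k _ => by
      rw [Matrix.smul_apply, Complex.real_smul]; ring

/-- `cj`, as a linear map. -/
def cjl : L2 d →ₗ[ℝ] L2 d where
  toFun := cj
  map_add' a b := by
    ext x y
    rw [cj_apply, add_apply, add_apply, add_apply, add_apply, map_add, cj_apply, cj_apply]
  map_smul' r a := by
    ext x y
    rw [cj_apply, smul_apply, smul_apply, RingHom.id_apply, smul_apply, smul_apply, cj_apply,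
      Complex.real_smul, Complex.real_smul, map_mul, Complex.conj_ofReal]

theorem cont_tf : Continuous (tf : Matrix (Fin d) (Fin d) ℂ → L2 d) := by
  exact LinearMap.continuous_of_finiteDimensional (𝕜 := ℝ) (E := Matrix (Fin d) (Fin d) ℂ)
    (F' := Cm d →L[ℝ] Cm d →L[ℝ] ℂ) tfl

theorem cont_cj : Continuous (cj : L2 d → L2 d) := by
  exact LinearMap.continuous_of_finiteDimensional (𝕜 := ℝ) (E := Cm d →L[ℝ] Cm d →L[ℝ] ℂ)
    (F' := Cm d →L[ℝ] Cm d →L[ℝ] ℂ) cjl

theorem cont_mat {M : Cm d → Matrix (Fin d) (Fin d) ℂ} {V : Set (Cm d)}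
    (h : ∀ j k, ContinuousOn (fun z => M z j k) V) : ContinuousOn M V :=
  continuousOn_pi.2 fun j => continuousOn_pi.2 fun k => h j k

end pt

/-! ### Integrals -/

variable {d a : ℕ} {E Γ : Type} [TopologicalSpace E] [Group Γ] [MulAction Γ E] {S : Sheets d E Γ}

/-- A closed semi-positive `(1,1)`-form of rank at most `a`. -/
structure Sem (S : Sheets d E Γ) (a : ℕ) (ν : Fin S.N → Cm d → Matrix (Fin d) (Fin d) ℂ) :
    Prop where
  smooth : ∀ i j k, ContDiffOn ℝ ∞ (fun z => ν i z j k) (ball 0 3)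
  psd : ∀ i, ∀ z ∈ ball (0 : Cm d) 3, (ν i z).PosSemidef
  rank : ∀ i, ∀ z ∈ ball (0 : Cm d) 3, (ν i z).rank ≤ a
  closed : ∀ i, ∀ z ∈ ball (0 : Cm d) 3, ∀ j k l,
    dz l (fun z => ν i z j k) z = dz j (fun z => ν i z l k) z
  change : ∀ i j, ∀ z ∈ ball (0 : Cm d) 3, ∀ z' ∈ ball (0 : Cm d) 3, ∀ (γ : Γ) (θ : Cm d → Cm d),
    AnalyticAt ℂ θ z → θ z = z' → (∀ᶠ u in 𝓝 z, S.σ i u = γ • S.σ j (θ u)) →
      ν i z = (H64.TK.jac θ z).transpose * ν j z' * (H64.TK.jac θ z).map conj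

/-- `ε w + ν`. -/
def pen {N : ℕ} (w ν : Fin N → Cm d → Matrix (Fin d) (Fin d) ℂ) (ε : ℝ) :
    Fin N → Cm d → Matrix (Fin d) (Fin d) ℂ := fun i z => (ε : ℂ) • w i z + ν i z

theorem kah_pen {w ν : Fin S.N → Cm d → Matrix (Fin d) (Fin d) ℂ} (hk : Kah S w)
    (hν : Sem S a ν) {ε : ℝ} (hε : 0 < ε) : Kah S (pen w ν ε) where
  smooth i j k := (contDiffOn_const (c := (ε : ℂ))).mul (hk.smooth i j k) |>.add
    (hν.smooth i j k)
  posDef i z hz := pencil_pos (hk.posDef i z hz) (hν.psd i z hz) hε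
  closed i z hz j k l := by
    have d1 : ∀ j k, DifferentiableAt ℝ (fun z => w i z j k) z := fun j k =>
      ((hk.smooth i j k).contDiffAt (isOpen_ball.mem_nhds hz)).differentiableAt (by simp)
    have d2 : ∀ j k, DifferentiableAt ℝ (fun z => ν i z j k) z := fun j k =>
      ((hν.smooth i j k).contDiffAt (isOpen_ball.mem_nhds hz)).differentiableAt (by simp)
    have e : ∀ j k l, dz l (fun z => pen w ν ε i z j k) z =
        ε * dz l (fun z => w i z j k) z + dz l (fun z => ν i z j k) z := by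
      intro j k l
      have : (fun z => pen w ν ε i z j k) = fun z => (ε : ℂ) * w i z j k + ν i z j k := rfl
      rw [this, dz_add l ((d1 j k).const_mul _) (d2 j k), dz_const_mul l _ (d1 j k)]
    rw [e, e, hk.closed i z hz, hν.closed i z hz]
  change i j z hz z' hz' γ θ h1 h2 h3 := by
    rw [pen, hk.change i j z hz z' hz' γ θ h1 h2 h3, hν.change i j z hz z' hz' γ θ h1 h2 h3, pen,
      Matrix.mul_add, Matrix.add_mul, Matrix.mul_smul, Matrix.smul_mul]

theorem kw_pen {N : ℕ} (w ν : Fin N → Cm d → Matrix (Fin d) (Fin d) ℂ) (ε : ℝ) :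
    kw (pen w ν ε) = fun i z => (ε : ℂ) • kw w i z + kw ν i z := by
  funext i z
  rw [kw, pen, kf_add', kf_smul']
  rfl

theorem kw_sem {N : ℕ} (w ν : Fin N → Cm d → Matrix (Fin d) (Fin d) ℂ) :
    kw ν = fun i z => kw (pen w ν 1) i z - kw w i z := by
  rw [kw_pen]
  funext i z
  ext u v
  simp

theorem sem_cl2 (hF : FormsStmt) (h0 : 0 < d) [T2Space E] [Subsingleton Γ]
    [ContinuousConstSMul Γ E] {w ν : Fin S.N → Cm d → Matrix (Fin d) (Fin d) ℂ} (hk : Kah S w)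
    (hν : Sem S a ν) : Cl2 S (kw ν) := by
  rw [kw_sem w ν]
  exact cl2_sub (cl2_kw hF h0 (kah_pen hk hν one_pos)) (cl2_kw hF h0 hk)

theorem sem_real2 {ν : Fin S.N → Cm d → Matrix (Fin d) (Fin d) ℂ} (hν : Sem S a ν) : Real2 S (kw ν) := by
  intro i z hz u v
  have h := cj_kf (hν.psd i z hz).1
  have h1 := congrArg (fun x : L2 d => x u v) h
  exact Complex.conj_eq_iff_im.1 h1

/-- `∫ x ∧ y ∧ ν^m ∧ w^(d-2-m)`. -/
def qI (S : Sheets d E Γ) (w ν : Fin S.N → Cm d → Matrix (Fin d) (Fin d) ℂ) (m : ℕ)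
    (x y : Fin S.N → Cm d → L2 d) : ℂ :=
  S.int fun i z => W (vm (x i z) (y i z) (kf (w i z)) (kf (ν i z)) m)

section
variable {w ν : Fin S.N → Cm d → Matrix (Fin d) (Fin d) ℂ} {x y : Fin S.N → Cm d → L2 d}

theorem cont_q (cw : ∀ i, ContinuousOn (kw w i) (ball 0 3))
    (cν : ∀ i, ContinuousOn (kw ν i) (ball 0 3)) (hx : ∀ i, ContinuousOn (x i) (ball 0 3))
    (hy : ∀ i, ContinuousOn (y i) (ball 0 3)) (m : ℕ) (i : Fin S.N) :
    ContinuousOn (fun z => W (vm (x i z) (y i z) (kf (w i z)) (kf (ν i z)) m)) (ball 0 3) :=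
  cont_vm (hx i) (hy i) (cw i) (cν i) m

/-- The expansion. -/
theorem bW_pen [Subsingleton Γ] (hW : WLinStmt) (hV : WValStmt) (ha : a + 2 ≤ d) (hk : Kah S w)
    (hν : Sem S a ν) (cw : ∀ i, ContinuousOn (kw w i) (ball 0 3))
    (cν : ∀ i, ContinuousOn (kw ν i) (ball 0 3)) (hx : ∀ i, ContinuousOn (x i) (ball 0 3))
    (hy : ∀ i, ContinuousOn (y i) (ball 0 3))
    (sx : ∀ i, ∀ z ∈ ball (0 : Cm d) 3, ∀ u v, x i z u v = - x i z v u)
    (sy : ∀ i, ∀ z ∈ ball (0 : Cm d) 3, ∀ u v, y i z u v = - y i z v u) (ε : ℝ) :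
    (bW S x y (kw (pen w ν ε))).re = ε ^ (d - 2 - a) * ∑ i ∈ Finset.range (a + 1),
      ((d - 2).choose i : ℝ) * ε ^ (a - i) * (qI S w ν i x y).re := by
  have e : bW S x y (kw (pen w ν ε)) = (ε : ℂ) ^ (d - 2 - a) * ∑ i ∈ Finset.range (a + 1),
      ((d - 2).choose i : ℂ) * (ε : ℂ) ^ (a - i) * qI S w ν i x y := by
    refine (int_congr (D' := fun i z => (ε : ℂ) ^ (d - 2 - a) * ∑ m ∈ Finset.range (a + 1),
      ((d - 2).choose m : ℂ) * (ε : ℂ) ^ (a - m) *
        W (vm (x i z) (y i z) (kf (w i z)) (kf (ν i z)) m)) fun i z hz =>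
      W3_pencil hW hV ha (hk.posDef i z hz) (hν.psd i z hz) (hν.rank i z hz) (sx i z hz)
        (sy i z hz) (ε : ℂ)).trans ?_
    rw [int_mul, H594.TS.int_sum S (Finset.range (a + 1)) (fun m i z => ((d - 2).choose m : ℂ) *
        (ε : ℂ) ^ (a - m) * W (vm (x i z) (y i z) (kf (w i z)) (kf (ν i z)) m))
        (fun m i => continuousOn_const.mul (cont_q cw cν hx hy m i))]
    congr 1
    exact Finset.sum_congr rfl fun m _ => int_mul _
  rw [e]
  have e2 : (ε : ℂ) ^ (d - 2 - a) * ∑ i ∈ Finset.range (a + 1),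
      ((d - 2).choose i : ℂ) * (ε : ℂ) ^ (a - i) * qI S w ν i x y =
      ((ε ^ (d - 2 - a) : ℝ) : ℂ) * ∑ i ∈ Finset.range (a + 1),
        (((((d - 2).choose i : ℝ) * ε ^ (a - i) : ℝ)) : ℂ) * qI S w ν i x y := by
    push_cast
    rfl
  rw [e2, Complex.re_ofReal_mul, Complex.re_sum]
  congr 1
  exact Finset.sum_congr rfl fun m _ => Complex.re_ofReal_mul _ _

theorem q_nonneg (hc : ∀ m i, ContinuousOn
    (fun z => W (vm (x i z) (y i z) (kf (w i z)) (kf (ν i z)) m)) (ball 0 3)) {m : ℕ}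
    (h : ∀ i, ∀ z ∈ closedBall (0 : Cm d) 1,
      0 ≤ (W (vm (x i z) (y i z) (kf (w i z)) (kf (ν i z)) m)).re) :
    0 ≤ (qI S w ν m x y).re := by
  rw [qI, int_re (hc m)]
  have h1 := rI_mono (S := S) (f := fun _ _ => 0) (fun _ => continuousOn_const)
    (fun i => Complex.continuous_re.comp_continuousOn (hc m i)) h
  have h2 : rI S (fun _ _ => 0) = 0 := by simp [rI]
  rw [h2] at h1
  exact h1

end

end Vale.Agent.P281.H624.HKT
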