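import Vale.Agent.P281.H624.HKT.IndT
import Vale.Agent.P281.H624.HK.HIFin
import Vale.Agent.P281.H747.HKT.PosT

/-!
# P281, project T-HKT, block IND (helper624): all inputs plugged
-/

namespace Vale.Agent.P281.H624.HKT

open Vale.Agent.P281

theorem indTStmt : H83.HKT.IndTStmt :=
  indT H864.HK.wLin H747.HK.wVal H406.HK.forms H864.HK.wStokes H89.HK.ht H624.HK.hi
    (H747.HKT.posTStmt H406.HK.forms)

end Vale.Agent.P281.H624.HKT
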