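import Vale.Agent.P281.H624.HKT.Conv
import Vale.Agent.P281.H83.HKT.Spec

/-!
# P281, project T-HKT, block IND (helper624): the index of `∫ x ∧ y ∧ θ ∧ w^(d-a-2)`
-/

open Set Filter Metric MeasureTheory Vale.Agent.P272.K
open scoped Topology ContDiff ComplexConjugate ComplexOrder Matrix

noncomputable section

namespace Vale.Agent.P281.H624.HKT

open Vale.Agent.P281.H64.TK Vale.Agent.P281.H64.TK.TS Vale.Agent.P272.K.C2
open Vale.Agent.P281.H83.HK Vale.Agent.P281.H624.TS Vale.Agent.P281.H624.HK
open Vale.Agent.P281.H83.HKT (thj lst W4 bT Hol1 GenU uu IndTStmt PosTStmt)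

theorem cmul {d : ℕ} {f : Cm d → ℂ} {V : Set (Cm d)} (c : ℂ) (h : ContinuousOn f V) :
    ContinuousOn (fun z => c * f z) V := continuousOn_const.mul h

/-- **IND**, from `HIStmt`. -/
theorem indT (hW : WLinStmt) (hV : WValStmt) (hF : FormsStmt) (hS : WStokesStmt) (hT : HTStmt)
    (hI : HIStmt) (hP : PosTStmt) : IndTStmt := by
  intro a d E Γ _ _ _ _ _ _ _ S w u s α ha hk hg hα hr h0 h1
  have h2 : 2 ≤ d := by omega
  have hd0 : 0 < d := by omega
  obtain ⟨p1, -, -, -, p5⟩ := hP a d E Γ S w u s ha hk hg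
  have hν := sem_nu hg.one
  have hq := fun x y => q_bT (S := S) (w := w) (u := u) hW ha x y
  have hK := Ka_pos a
  have hre : ∀ z : ℂ, ((Ka a : ℂ) * z).re = Ka a * z.re := fun z => Complex.re_ofReal_mul _ _
  have hκ : Cl2 S (kw w) := cl2_kw hF hd0 hk
  have hκ' := sem_cl2 hF hd0 hk hν
  have cw := H594.HK.cl2_cont hκ
  have cν := H594.HK.cl2_cont hκ'
  have main := index_q hW hV hF hS hT hI ha hk hν hα hr (by rw [hq, h0, mul_zero, Complex.zero_re])
    ?_ (by rw [hq, hre]; exact mul_pos hK p1)
  · rw [hq, hre] at main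
    by_contra hn
    have := mul_pos hK (not_le.1 hn)
    linarith
  · intro t ht
    obtain ⟨c, m, hm, hc⟩ := hg.span2 t ht
    have hts : Cl2 S (ts s) := (hF d E Γ S hd0).1 s hg.form
    have htt : Cl2 S (ts t) := (hF d E Γ S hd0).1 t ht
    -- the symmetric form vanishes on `u_j ∧ u_k`
    have e1 : qI S w (fun i z => nu (u i z)) a (ts fun i z => uu m (u i z)) α = 0 := by
      rw [hq, p5 m α hm hα, mul_zero]
    have e2 : ∀ x y : Fin S.N → Cm d → L2 d, qI S w (fun i z => nu (u i z)) a x y =
        qI S w (fun i z => nu (u i z)) a y x := fun x y =>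
      int_congr fun i z _ => vm_comm hW h2 _ _ _ _ _
    have e3 : qI S w (fun i z => nu (u i z)) a (ts s) α = 0 := by
      rw [e2, hq, h1, mul_zero]
    rw [e2]
    have e4 : qI S w (fun i z => nu (u i z)) a (ts fun i z => uu m (u i z)) α =
        qI S w (fun i z => nu (u i z)) a (ts t) α -
          c * qI S w (fun i z => nu (u i z)) a (ts s) α := by
      simp only [qI]
      have f1 := fun i => cont_q cw cν (H594.HK.cl2_cont htt) (H594.HK.cl2_cont hα) a i
      have f2 := fun i => cmul c
        (cont_q cw cν (H594.HK.cl2_cont hts) (H594.HK.cl2_cont hα) a i)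
      rw [← int_mul, ← int_sub f1 f2]
      refine int_congr fun i z hz => ?_
      have e5 : ts t i z = c • ts s i z + tf (uu m (u i z)) := by
        rw [ts, hc i z hz, ts]
        ext x y
        rw [add_apply, add_apply, smul_apply, smul_apply, tf_apply, tf_apply, tf_apply,
          smul_eq_mul, Finset.mul_sum, ← Finset.sum_add_distrib]
        refine Finset.sum_congr rfl fun j _ => ?_
        rw [Finset.mul_sum, ← Finset.sum_add_distrib]
        refine Finset.sum_congr rfl fun k _ => ?_
        rw [Matrix.add_apply, Matrix.smul_apply, smul_eq_mul]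
        ring
      rw [e5, vm_add hW h2, vm_smul hW h2]
      simp only [ts]
      ring
    rw [e1, e3, mul_zero, sub_zero] at e4
    exact e4.symm

end Vale.Agent.P281.H624.HKT
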