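import Vale.Agent.P281.H624.HKT.Proj
import Vale.Agent.P281.H594.HK.Per0

/-!
# P281, project T-HKT, index block (helper624): the Hodge index inequality for all closed forms
-/

open Set Filter Metric MeasureTheory Vale.Agent.P272.K
open scoped Topology ContDiff ComplexConjugate ComplexOrder Matrix

noncomputable section

namespace Vale.Agent.P281.H624.HKT

open Vale.Agent.P281.H64.TK Vale.Agent.P281.H64.TK.TS Vale.Agent.P272.K.C2
open Vale.Agent.P281.H83.HK Vale.Agent.P281.H624.TS Vale.Agent.P281.H624.HK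

variable {d : ℕ} {E Γ : Type} [TopologicalSpace E] [T2Space E] [Group Γ] [Subsingleton Γ]
    [MulAction Γ E] [ContinuousConstSMul Γ E] {S : Sheets d E Γ}

/-- Values on types. -/
theorem W3_tt (hV : WValStmt) (h2 : 2 ≤ d) {w s t : Matrix (Fin d) (Fin d) ℂ} (hw : w.PosDef)
    (hs : sᵀ = -s) (ht : tᵀ = -t) : W3 (tf s) (tf t) (kf w) = 0 := by
  rw [hV d _ _ w h2 (tf_skew hs) (tf_skew ht) hw, h11_eq, h11_eq, hm_tf, hm_tf, c02_tf, c02_tf]
  simp

theorem W3_tk (hV : WValStmt) (h2 : 2 ≤ d) {w s : Matrix (Fin d) (Fin d) ℂ} (hw : w.PosDef)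
    (hs : sᵀ = -s) : W3 (tf s) (kf w) (kf w) = 0 := by
  rw [hV d _ _ w h2 (tf_skew hs) (kf_skew w) hw, h11_eq, h11_eq, hm_tf, c02_tf, c20_kf, c02_kf]
  simp

theorem W3_cj3 (x y : L2 d) {w : Matrix (Fin d) (Fin d) ℂ} (hw : w.IsHermitian) :
    W3 (cj x) (cj y) (kf w) = conj (W3 x y (kf w)) :=
  H864.HK.W3_conj (fun _ _ => rfl) (fun _ _ => rfl) (fun u v => by
    conv_lhs => rw [← cj_kf hw]
    rfl)

omit [T2Space E] [Subsingleton Γ] [ContinuousConstSMul Γ E] in
theorem int_conj' (D : Fin S.N → Cm d → ℂ) : S.int (fun i z => conj (D i z)) = conj (S.int D) := by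
  simp only [Sheets.int, map_sum]
  exact Finset.sum_congr rfl fun i _ => integral_conj

omit [T2Space E] [Subsingleton Γ] [ContinuousConstSMul Γ E] in
theorem bW_cj {w : Fin S.N → Cm d → Matrix (Fin d) (Fin d) ℂ} (hk : Kah S w)
    (a b : Fin S.N → Cm d → L2 d) : bW S (cjs a) (cjs b) (kw w) = conj (bW S a b (kw w)) := by
  rw [bW, bW, ← int_conj']
  exact int_congr fun i z hz => W3_cj3 _ _ (hk.posDef i z hz).1

omit [T2Space E] [Subsingleton Γ] [ContinuousConstSMul Γ E] in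
theorem cjs_real {a : Fin S.N → Cm d → L2 d} (h : Real2 S a) (i : Fin S.N) {z : Cm d}
    (hz : z ∈ ball (0 : Cm d) 3) : cjs a i z = a i z := by
  ext u v
  exact Complex.conj_eq_iff_im.2 (h i z hz u v)

omit [T2Space E] [Subsingleton Γ] [ContinuousConstSMul Γ E] in
/-- **The Hodge index inequality** for all closed forms. -/
theorem ineq (hW : WLinStmt) (hV : WValStmt) (hF : FormsStmt) (hI : HIStmt)
    [T2Space E] [Subsingleton Γ] [ContinuousConstSMul Γ E] [PreconnectedSpace E] (h2 : 2 ≤ d)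
    {w : Fin S.N → Cm d → Matrix (Fin d) (Fin d) ℂ} (hk : Kah S w) {α : Fin S.N → Cm d → L2 d}
    (h : Cl2 S α) (hr : Real2 S α) {s : Fin S.N → Cm d → Matrix (Fin d) (Fin d) ℂ}
    (hs : Hol2 S s) (hp : ∀ t, Hol2 S t →
      bW S α (cjs (ts t)) (kw w) = bW S (ts s) (cjs (ts t)) (kw w))
    (hψ : 0 < (bW S (kw w) (kw w) (kw w)).re) :
    (bW S α α (kw w)).re ≤ 2 * (bW S (ts s) (cjs (ts s)) (kw w)).re +
      (bW S α (kw w) (kw w)).re ^ 2 / (bW S (kw w) (kw w) (kw w)).re := by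
  have h0 : 0 < d := by omega
  have h1 : 1 < d := by omega
  have hκ := cl2_kw hF h0 hk
  have hκr := real2_kw hF h0 hk
  have hts : Cl2 S (ts s) := (hF d E Γ S h0).1 s hs
  have hcs : Cl2 S (cjs (ts s)) := (hF d E Γ S h0).2.2 _ hts
  set κ := kw w with hκd
  set φ := (bW S α κ κ).re with hφ
  set ψ := (bW S κ κ κ).re with hψd
  have eφ : bW S α κ κ = (φ : ℂ) := by
    apply Complex.ext
    · simp [hφ]
    · simp [H594.HK.bW_im hr hκr hκr]
  have eψ : bW S κ κ κ = (ψ : ℂ) := by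
    apply Complex.ext
    · simp [hψd]
    · simp [H594.HK.bW_im hκr hκr hκr]
  -- pointwise zeros
  have z1 : ∀ t, Hol2 S t → bW S (ts s) (ts t) κ = 0 := by
    intro t ht
    refine (int_congr (D' := fun _ _ => 0) fun i z hz =>
      W3_tt hV h2 (hk.posDef i z hz) (hs.alt i z hz) (ht.alt i z hz)).trans ?_
    simp [Sheets.int]
  have z2 : ∀ t, Hol2 S t → bW S (ts t) κ κ = 0 := by
    intro t ht
    refine (int_congr (D' := fun _ _ => 0) fun i z hz =>
      W3_tk hV h2 (hk.posDef i z hz) (ht.alt i z hz)).trans ?_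
    simp [Sheets.int]
  have rκ : ∀ a b : Fin S.N → Cm d → L2 d, bW S (cjs a) b κ = conj (bW S a (cjs b) κ) := by
    intro a b
    rw [← bW_cj hk]
    exact H594.HK.bW_congr (fun _ _ _ => rfl) fun i z _ => by
      ext u v
      simp [cjs, cj_apply]
  have rα : ∀ b : Fin S.N → Cm d → L2 d, bW S α b κ = conj (bW S α (cjs b) κ) := by
    intro b
    rw [← rκ]
    exact H594.HK.bW_congr (fun i z hz => (cjs_real hr i hz).symm) fun _ _ _ => rfl
  have z3 : bW S (cjs (ts s)) κ κ = 0 := by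
    have : bW S (cjs (ts s)) κ κ = conj (bW S (ts s) κ κ) := by
      rw [rκ]
      exact congrArg conj (H594.HK.bW_congr (fun _ _ _ => rfl) fun i z hz => cjs_real hκr i hz)
    rw [this, z2 s hs, map_zero]
  set N := bW S (ts s) (cjs (ts s)) κ with hN
  have cN : conj N = N := by
    rw [hN, ← rκ, H594.HK.bW_comm h1]
  -- the corrected form
  set β : Fin S.N → Cm d → L2 d := fun i z => ts s i z + cjs (ts s) i z with hβ
  have cβ : Cl2 S β := H740.TS.cl2_add hts hcs
  set c : ℝ := φ / ψ with hc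
  set γ : Fin S.N → Cm d → L2 d := fun i z => (c : ℂ) • κ i z with hγ
  have cγ : Cl2 S γ := H740.TS.cl2_smul _ hκ
  have cαβ := cl2_sub h cβ
  set A : Fin S.N → Cm d → L2 d := fun i z => (α i z - β i z) - γ i z with hA
  have cA : Cl2 S A := cl2_sub cαβ cγ
  have rA : Real2 S A := by
    intro i z hz u v
    have e1 : A i z u v = (α i z u v - (ts s i z u v + conj (ts s i z u v))) -
        (c : ℂ) * κ i z u v := rfl
    rw [e1]
    simp only [Complex.sub_im, Complex.add_im, Complex.conj_im, hr i z hz, Complex.mul_im,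
      Complex.ofReal_re, Complex.ofReal_im, hκr i z hz]
    ring
  have lin : ∀ b, Cl2 S b → bW S A b κ =
      bW S α b κ - (bW S (ts s) b κ + bW S (cjs (ts s)) b κ) - c * bW S κ b κ := by
    intro b hb
    rw [hA, bW_sub hW h2 cαβ cγ hb hκ, bW_sub hW h2 h cβ hb hκ, hγ, H594.HK.bW_smul h0, hβ,
      H594.HK.bW_add h0 (H594.HK.cl2_cont hts) (H594.HK.cl2_cont hcs) (H594.HK.cl2_cont hb)
        (H594.HK.cl2_cont hκ)]
  have eA := hI d E Γ S w A h2 hk cA rA ?_ ?_
  · have h3 := eA.1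
    have e2 : bW S A A κ = bW S α α κ - 2 * N - c * φ := by
      rw [lin A cA, H594.HK.bW_comm h1 α A, H594.HK.bW_comm h1 (ts s) A,
        H594.HK.bW_comm h1 (cjs (ts s)) A, H594.HK.bW_comm h1 κ A, lin α h, lin _ hts, lin _ hcs,
        lin _ hκ, z1 s hs, H594.HK.bW_comm h1 (cjs (ts s)) (ts s), H594.HK.bW_comm h1 κ (ts s),
        z2 s hs, z3, H594.HK.bW_comm h1 κ (cjs (ts s)), z3, H594.HK.bW_comm h1 (ts s) α,
        H594.HK.bW_comm h1 (cjs (ts s)) α, hp s hs, rα (ts s), hp s hs, ← hN, cN,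
        H594.HK.bW_comm h1 κ α, eφ, eψ, rκ (ts s) (cjs (ts s))]
      have e3 : bW S (ts s) (cjs (cjs (ts s))) κ = 0 := by
        rw [← z1 s hs]
        exact H594.HK.bW_congr (fun _ _ _ => rfl) fun i z _ => by
          ext u v
          simp [cjs, cj_apply]
      rw [e3, map_zero]
      have e4 : (c : ℂ) * ψ = φ := by
        rw [hc]
        push_cast
        have : (ψ : ℂ) ≠ 0 := by exact_mod_cast hψ.ne'
        field_simp
      linear_combination (c : ℂ) * e4
    rw [e2] at h3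
    have e5 : (bW S α α κ - 2 * N - c * φ).re = (bW S α α κ).re - 2 * N.re - c * φ := by
      simp
    rw [e5] at h3
    have e6 : φ ^ 2 / ψ = c * φ := by
      rw [hc]
      field_simp
    rw [e6]
    linarith
  · rw [lin κ hκ, eφ, z2 s hs, z3, eψ, hc]
    push_cast
    have : (ψ : ℂ) ≠ 0 := by exact_mod_cast hψ.ne'
    field_simp
    ring
  · intro t ht
    have htt : Cl2 S (ts t) := (hF d E Γ S h0).1 t ht
    rw [lin _ htt, z1 t ht, rα (ts t), hp t ht, rκ (ts s) (ts t), H594.HK.bW_comm h1 κ, z2 t ht]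
    ring

end Vale.Agent.P281.H624.HKT
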