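import Vale.Agent.P281.H624.HKT.Exp

/-!
# P281, project T-HKT, index block (helper624): the Hodge index inequality for
`∫ x ∧ y ∧ ν^a ∧ w^(d-2-a)`, `ν` semi-positive of rank at most `a`
-/

open Set Filter Metric MeasureTheory Vale.Agent.P272.K
open scoped Topology ContDiff ComplexConjugate ComplexOrder Matrix

noncomputable section

namespace Vale.Agent.P281.H624.HKT

open Vale.Agent.P281.H64.TK Vale.Agent.P281.H64.TK.TS Vale.Agent.P272.K.C2
open Vale.Agent.P281.H83.HK Vale.Agent.P281.H624.TS Vale.Agent.P281.H624.HK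

variable {d a : ℕ} {E Γ : Type} [TopologicalSpace E] [Group Γ] [MulAction Γ E] {S : Sheets d E Γ}
variable {w ν : Fin S.N → Cm d → Matrix (Fin d) (Fin d) ℂ} {α : Fin S.N → Cm d → L2 d}

/-- The elementary half of the limit. -/
theorem lim_le {a : ℕ} (C q A b b' : ℕ → ℝ) (c₀ : ℝ) (hC : 0 < C a)
    (key : ∀ ε : ℝ, 0 < ε → ∑ i ∈ Finset.range (a + 1), C i * ε ^ (a - i) * q i ≤
      2 * ∑ i ∈ Finset.range a, C i * ε ^ (a - i) * A i +
        ε ^ 2 * (∑ i ∈ Finset.range a, C i * ε ^ (a - 1 - i) * b i +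
          ∑ i ∈ Finset.range (a - 1), C i * ε ^ (a - 2 - i) * b' i) ^ 2 / c₀) : q a ≤ 0 := by
  have c1 : Continuous fun ε : ℝ => ∑ i ∈ Finset.range (a + 1), C i * ε ^ (a - i) * q i := by
    fun_prop
  have c2 : Continuous fun ε : ℝ => 2 * ∑ i ∈ Finset.range a, C i * ε ^ (a - i) * A i +
      ε ^ 2 * (∑ i ∈ Finset.range a, C i * ε ^ (a - 1 - i) * b i +
        ∑ i ∈ Finset.range (a - 1), C i * ε ^ (a - 2 - i) * b' i) ^ 2 / c₀ := by
    fun_prop
  have t1 : Tendsto _ (𝓝[>] (0 : ℝ)) _ := (c1.tendsto 0).mono_left nhdsWithin_le_nhds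
  have t2 : Tendsto _ (𝓝[>] (0 : ℝ)) _ := (c2.tendsto 0).mono_left nhdsWithin_le_nhds
  have h := le_of_tendsto_of_tendsto t1 t2 (eventually_nhdsWithin_of_forall fun ε hε => key ε hε)
  rw [Finset.sum_range_succ] at h
  have z : ∀ f : ℕ → ℝ, ∑ i ∈ Finset.range a, C i * (0 : ℝ) ^ (a - i) * f i = 0 := fun f =>
    Finset.sum_eq_zero fun i hi => by
      have := Finset.mem_range.1 hi
      rw [zero_pow (by omega), mul_zero, zero_mul]
  rw [z, z, Nat.sub_self, pow_zero, mul_one, zero_add] at h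
  have h3 : C a * q a ≤ 0 := by
    refine h.trans_eq ?_
    simp
  by_contra hq
  have := mul_pos hC (not_le.1 hq)
  linarith

theorem cre {f : Cm d → ℂ} {V : Set (Cm d)} (h : ContinuousOn f V) :
    ContinuousOn (fun z => (f z).re) V := Complex.continuous_re.comp_continuousOn h

theorem index_q [T2Space E] [PreconnectedSpace E] [Subsingleton Γ] [ContinuousConstSMul Γ E]
    (hW : WLinStmt) (hV : WValStmt) (hF : FormsStmt) (hS : WStokesStmt) (hT : HTStmt)
    (hI : HIStmt) (ha : a + 2 ≤ d) (hk : Kah S w) (hν : Sem S a ν) (h : Cl2 S α)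
    (hr : Real2 S α) (h0 : (qI S w ν a α (kw w)).re = 0)
    (h1 : ∀ t, Hol2 S t → qI S w ν a α (ts t) = 0)
    (hp : 0 < (qI S w ν a (kw w) (kw w)).re) : (qI S w ν a α α).re ≤ 0 := by
  have h2 : 2 ≤ d := by omega
  have hd0 : 0 < d := by omega
  have hd1 : 1 < d := by omega
  have hκ : Cl2 S (kw w) := cl2_kw hF hd0 hk
  have hκ' : Cl2 S (kw ν) := sem_cl2 hF hd0 hk hν
  have cw := H594.HK.cl2_cont hκ
  have cν := H594.HK.cl2_cont hκ'
  have cα := H594.HK.cl2_cont h
  have sα : ∀ i, ∀ z ∈ ball (0 : Cm d) 3, ∀ u v, α i z u v = - α i z v u := fun i z hz =>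
    h.alt i z hz trivial
  have sκ : ∀ i, ∀ z ∈ ball (0 : Cm d) 3, ∀ u v, kw w i z u v = - kw w i z v u := fun i z _ =>
    kf_skew (w i z)
  have sν : ∀ i, ∀ z ∈ ball (0 : Cm d) 3, ∀ u v, kw ν i z u v = - kw ν i z v u := fun i z _ =>
    kf_skew (ν i z)
  set xu : Fin S.N → Cm d → L2 d := fun i z => tf (c20 (α i z)) with hxu
  have cxu : ∀ i, ContinuousOn (xu i) (ball 0 3) := fun i =>
    cont_tf.comp_continuousOn (cont_mat fun j k z hz =>
      (mc_c20 (h.smooth i z hz trivial) j k).continuousAt.continuousWithinAt)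
  have ccxu : ∀ i, ContinuousOn (cjs xu i) (ball 0 3) := fun i =>
    cont_cj.comp_continuousOn (cxu i)
  -- values of the coefficients
  have hC : ∀ i, i ≤ d - 2 → (0 : ℝ) < ((d - 2).choose i : ℝ) := fun i hi => by
    exact_mod_cast Nat.choose_pos hi
  have q1 : (qI S w ν a α (kw ν)).re = 0 := by
    have : qI S w ν a α (kw ν) = 0 := by
      refine (int_congr (D' := fun _ _ => 0) fun i z hz => ?_).trans (by simp [Sheets.int])
      exact vm_zero' hW hV h2 (hk.posDef i z hz) (hν.psd i z hz) (hν.rank i z hz) ha (sα i z hz)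
        (by omega) le_rfl
    rw [this, Complex.zero_re]
  have q2 : 1 ≤ a → (qI S w ν (a - 1) α (kw ν)).re = 0 := by
    intro h1a
    have : qI S w ν (a - 1) α (kw ν) = qI S w ν a α (kw w) := by
      refine int_congr fun i z _ => ?_
      have := vm_swap hW (α i z) (kf (w i z)) (kf (ν i z)) (i := a - 1) (by omega)
      rw [show a - 1 + 1 = a by omega] at this
      exact this
    rw [this, h0]
  have q6 : ∀ A B : Fin S.N → Cm d → Matrix (Fin d) (Fin d) ℂ, (A = w ∨ A = ν) →
      (B = w ∨ B = ν) → ∀ m, m ≤ d - 2 → 0 ≤ (qI S w ν m (kw A) (kw B)).re := by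
    intro A B hA hB m hm
    have cA : ∀ i, ContinuousOn (kw A i) (ball 0 3) := by
      rcases hA with rfl | rfl
      · exact cw
      · exact cν
    have cB : ∀ i, ContinuousOn (kw B i) (ball 0 3) := by
      rcases hB with rfl | rfl
      · exact cw
      · exact cν
    refine q_nonneg (fun m i => cont_q cw cν cA cB m i) fun i z hz => ?_
    have hz' := b13 hz
    refine (Complex.nonneg_iff.1 (vm_pos11 hW hV h2 (hk.posDef i z hz') (hν.psd i z hz')
      (A := A i z) (B := B i z) ?_ ?_ hm)).1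
    · rcases hA with rfl | rfl
      · exact Or.inl rfl
      · exact Or.inr rfl
    · rcases hB with rfl | rfl
      · exact Or.inl rfl
      · exact Or.inr rfl
  have q6' := fun m (hm : m ≤ d - 2) => q6 w w (Or.inl rfl) (Or.inl rfl) m hm
  -- the inequality at `ε w + ν`
  refine lim_le (fun i => ((d - 2).choose i : ℝ)) (fun i => (qI S w ν i α α).re)
    (fun i => (qI S w ν i xu (cjs xu)).re) (fun i => (qI S w ν i α (kw w)).re)
    (fun i => (qI S w ν i α (kw ν)).re)
    (((d - 2).choose a : ℝ) * (qI S w ν a (kw w) (kw w)).re) (hC a (by omega)) fun ε hε => ?_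
  have hK : Kah S (pen w ν ε) := kah_pen hk hν hε
  obtain ⟨s, hs, hps⟩ := proj hW hV hF hS hT h2 hK h
  have cK := cl2_kw hF hd0 hK
  have eK := kw_pen w ν ε
  set K := kw (pen w ν ε) with hKd
  have lin : ∀ b, Cl2 S b → bW S K b K = ε * bW S (kw w) b K + bW S (kw ν) b K := by
    intro b hb
    have e1 : bW S K b K = bW S (fun i z => (ε : ℂ) • kw w i z + kw ν i z) b K :=
      congrArg (fun x => bW S x b K) eK
    rw [e1, H594.HK.bW_add hd0 (H594.HK.cl2_cont (H740.TS.cl2_smul _ hκ)) cν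
      (H594.HK.cl2_cont hb) (H594.HK.cl2_cont cK), H594.HK.bW_smul hd0]
  have hts : Cl2 S (ts s) := (hF d E Γ S hd0).1 s hs
  have hcs : Cl2 S (cjs (ts s)) := (hF d E Γ S hd0).2.2 _ hts
  have cts := H594.HK.cl2_cont hts
  have ccs := H594.HK.cl2_cont hcs
  have sts : ∀ i, ∀ z ∈ ball (0 : Cm d) 3, ∀ u v, ts s i z u v = - ts s i z v u := fun i z hz =>
    hts.alt i z hz trivial
  have scs : ∀ i, ∀ z ∈ ball (0 : Cm d) 3, ∀ u v, cjs (ts s) i z u v = - cjs (ts s) i z v u :=
    fun i z hz => hcs.alt i z hz trivial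
  have hee : 0 < ε ^ (d - 2 - a) := pow_pos hε _
  set e := ε ^ (d - 2 - a) with he
  -- `ψ`
  have pos_sum : ∀ f : ℕ → ℝ, (∀ i, i ≤ d - 2 → 0 ≤ f i) →
      ((d - 2).choose a : ℝ) * f a ≤ ∑ i ∈ Finset.range (a + 1),
        ((d - 2).choose i : ℝ) * ε ^ (a - i) * f i := by
    intro f hf
    have := Finset.single_le_sum (f := fun i => ((d - 2).choose i : ℝ) * ε ^ (a - i) * f i)
      (s := Finset.range (a + 1)) (fun i hi => ?_) (Finset.mem_range.2 (Nat.lt_succ_self a))
    · simpa using this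
    · have := Finset.mem_range.1 hi
      exact mul_nonneg (mul_nonneg (hC i (by omega)).le (pow_pos hε _).le) (hf i (by omega))
  have eψ : (bW S K K K).re = ε ^ 2 * (bW S (kw w) (kw w) K).re +
      2 * ε * (bW S (kw w) (kw ν) K).re + (bW S (kw ν) (kw ν) K).re := by
    have e1 : bW S K K K = (ε : ℂ) * (ε * bW S (kw w) (kw w) K + bW S (kw w) (kw ν) K) +
        (ε * bW S (kw w) (kw ν) K + bW S (kw ν) (kw ν) K) := by
      rw [lin K cK, H594.HK.bW_comm hd1 (kw w) K, H594.HK.bW_comm hd1 (kw ν) K, lin _ hκ,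
        lin _ hκ', H594.HK.bW_comm hd1 (kw ν) (kw w)]
    rw [e1]
    simp only [Complex.add_re, Complex.re_ofReal_mul]
    ring
  set c₀ := ((d - 2).choose a : ℝ) * (qI S w ν a (kw w) (kw w)).re with hc₀
  have hc₀p : 0 < c₀ := mul_pos (hC a (by omega)) hp
  have hψ : e * ε ^ 2 * c₀ ≤ (bW S K K K).re := by
    rw [eψ, bW_pen hW hV ha hk hν cw cν cw cw sκ sκ, bW_pen hW hV ha hk hν cw cν cw cν sκ sν,
      bW_pen hW hV ha hk hν cw cν cν cν sν sν]
    have b1 := pos_sum _ (q6 w w (Or.inl rfl) (Or.inl rfl))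
    have b2 := pos_sum _ (q6 w ν (Or.inl rfl) (Or.inr rfl))
    have b3 := pos_sum _ (q6 ν ν (Or.inr rfl) (Or.inr rfl))
    have b2' := (mul_nonneg (hC a (by omega)).le
      (q6 w ν (Or.inl rfl) (Or.inr rfl) a (by omega))).trans b2
    have b3' := (mul_nonneg (hC a (by omega)).le
      (q6 ν ν (Or.inr rfl) (Or.inr rfl) a (by omega))).trans b3
    have b4 := mul_nonneg (mul_nonneg (mul_nonneg zero_le_two hε.le) hee.le) b2'
    have b5 := mul_nonneg hee.le b3'
    have b6 := mul_le_mul_of_nonneg_left b1 (mul_nonneg hee.le (sq_nonneg ε))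
    rw [← hc₀] at b6
    refine b6.trans ?_
    linarith
  have hψ0 : 0 < (bW S K K K).re := lt_of_lt_of_le (by positivity) hψ
  -- `φ`
  set R := ∑ i ∈ Finset.range a, ((d - 2).choose i : ℝ) * ε ^ (a - 1 - i) *
      (qI S w ν i α (kw w)).re + ∑ i ∈ Finset.range (a - 1), ((d - 2).choose i : ℝ) *
        ε ^ (a - 2 - i) * (qI S w ν i α (kw ν)).re with hR
  have eφ : (bW S α K K).re = e * ε ^ 2 * R := by
    have e1 : bW S α K K = ε * bW S α (kw w) K + bW S α (kw ν) K := by
      rw [H594.HK.bW_comm hd1 α K, lin α h, H594.HK.bW_comm hd1 (kw w) α,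
        H594.HK.bW_comm hd1 (kw ν) α]
    rw [e1, Complex.add_re, Complex.re_ofReal_mul, bW_pen hW hV ha hk hν cw cν cα cw sα sκ,
      bW_pen hW hV ha hk hν cw cν cα cν sα sν, Finset.sum_range_succ, Finset.sum_range_succ, h0,
      q1, mul_zero, add_zero, add_zero]
    have e2 : ∑ i ∈ Finset.range a, ((d - 2).choose i : ℝ) * ε ^ (a - i) *
        (qI S w ν i α (kw w)).re = ε * ∑ i ∈ Finset.range a, ((d - 2).choose i : ℝ) *
          ε ^ (a - 1 - i) * (qI S w ν i α (kw w)).re := by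
      rw [Finset.mul_sum]
      refine Finset.sum_congr rfl fun i hi => ?_
      have := Finset.mem_range.1 hi
      rw [show a - i = (a - 1 - i) + 1 by omega, pow_succ]
      ring
    have e3 : ∑ i ∈ Finset.range a, ((d - 2).choose i : ℝ) * ε ^ (a - i) *
        (qI S w ν i α (kw ν)).re = ε ^ 2 * ∑ i ∈ Finset.range (a - 1),
          ((d - 2).choose i : ℝ) * ε ^ (a - 2 - i) * (qI S w ν i α (kw ν)).re := by
      rcases Nat.eq_zero_or_pos a with h3 | h3
      · subst h3
        simp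
      · obtain ⟨b, rfl⟩ : ∃ b, a = b + 1 := ⟨a - 1, by omega⟩
        rw [Finset.sum_range_succ]
        have := q2 (by omega)
        rw [show b + 1 - 1 = b by omega] at this
        rw [this, mul_zero, add_zero, show b + 1 - 1 = b by omega, Finset.mul_sum]
        refine Finset.sum_congr rfl fun i hi => ?_
        have := Finset.mem_range.1 hi
        rw [show b + 1 - i = (b + 1 - 2 - i) + 2 by omega, pow_add]
        ring
    rw [e2, e3, hR]
    ring
  -- `N`
  have cq : ∀ m i, ContinuousOn (fun z => W (vm (ts s i z) (cjs (ts s) i z) (kf (w i z))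
      (kf (ν i z)) m)) (ball 0 3) := fun m i => cont_q cw cν cts ccs m i
  have p20 : ∀ m, m ≤ d - 2 → 0 ≤ (qI S w ν m (ts s) (cjs (ts s))).re := by
    intro m hm
    refine q_nonneg cq fun i z hz => ?_
    have hz' := b13 hz
    exact (Complex.nonneg_iff.1 (vm_pos20 hW hV h2 (hk.posDef i z hz') (hν.psd i z hz')
      (hs.alt i z hz') hm)).1
  have am : ∀ m, m ≤ d - 2 → 2 * (qI S w ν m α (cjs (ts s))).re ≤
      (qI S w ν m xu (cjs xu)).re + (qI S w ν m (ts s) (cjs (ts s))).re := by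
    intro m hm
    have d1 := fun i => cont_q cw cν cα ccs m i
    have d2 := fun i => cont_q cw cν cxu ccxu m i
    have d3 := fun i => cq m i
    have f1 := fun i => cre (d1 i)
    have f2 := fun i => cre (d2 i)
    have f3 := fun i => cre (d3 i)
    rw [qI, qI, qI, int_re d1, int_re d2, int_re d3, ← rI_add f2 f3, ← rI_mul]
    refine rI_mono (fun i => continuousOn_const.mul (f1 i)) (fun i => (f2 i).add (f3 i))
      fun i z hz => ?_
    have hz' := b13 hz
    exact amgm hW hV h2 (hk.posDef i z hz') (hν.psd i z hz') (hs.alt i z hz') (sα i z hz') hm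
  have q3 : (qI S w ν a α (cjs (ts s))).re = 0 := by
    have e1 : qI S w ν a α (cjs (ts s)) = conj (qI S w ν a α (ts s)) := by
      rw [qI, qI, ← int_conj']
      refine int_congr fun i z hz => ?_
      rw [← vm_cj _ _ (hk.posDef i z hz).1 (hν.psd i z hz).1]
      have := cjs_real hr i hz
      rw [cjs] at this
      rw [this]
      rfl
    rw [e1, h1 s hs, map_zero, Complex.zero_re]
  set N := (bW S (ts s) (cjs (ts s)) K).re with hN
  have n1 : N = e * ∑ i ∈ Finset.range a, ((d - 2).choose i : ℝ) * ε ^ (a - i) *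
      (qI S w ν i α (cjs (ts s))).re := by
    rw [hN, ← hps s hs, bW_pen hW hV ha hk hν cw cν cα ccs sα scs, Finset.sum_range_succ, q3,
      mul_zero, add_zero]
  have n2 : e * ∑ i ∈ Finset.range a, ((d - 2).choose i : ℝ) * ε ^ (a - i) *
      (qI S w ν i (ts s) (cjs (ts s))).re ≤ N := by
    rw [hN, bW_pen hW hV ha hk hν cw cν cts ccs sts scs]
    refine mul_le_mul_of_nonneg_left ?_ hee.le
    rw [Finset.sum_range_succ]
    have := mul_nonneg (mul_nonneg (hC a (by omega)).le (pow_pos hε (a - a)).le)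
      (p20 a (by omega))
    linarith
  have n3 : 2 * N ≤ e * ∑ i ∈ Finset.range a, ((d - 2).choose i : ℝ) * ε ^ (a - i) *
      (qI S w ν i xu (cjs xu)).re + N := by
    have n4 : 2 * N ≤ e * ∑ i ∈ Finset.range a, ((d - 2).choose i : ℝ) * ε ^ (a - i) *
        (qI S w ν i xu (cjs xu)).re + e * ∑ i ∈ Finset.range a, ((d - 2).choose i : ℝ) *
          ε ^ (a - i) * (qI S w ν i (ts s) (cjs (ts s))).re := by
      rw [n1, ← mul_add, ← Finset.sum_add_distrib, mul_left_comm, Finset.mul_sum]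
      refine mul_le_mul_of_nonneg_left (Finset.sum_le_sum fun i hi => ?_) hee.le
      have hi' := Finset.mem_range.1 hi
      have := mul_le_mul_of_nonneg_left (am i (by omega))
        (mul_nonneg (hC i (by omega)).le (pow_pos hε (a - i)).le)
      linarith
    linarith
  have n5 : N ≤ e * ∑ i ∈ Finset.range a, ((d - 2).choose i : ℝ) * ε ^ (a - i) *
      (qI S w ν i xu (cjs xu)).re := by linarith
  -- the end
  have hI' := ineq hW hV hF hI h2 hK h hr hs hps hψ0
  rw [← hKd, ← hN, eφ, bW_pen hW hV ha hk hν cw cν cα cα sα sα] at hI'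
  have r1 : (e * ε ^ 2 * R) ^ 2 / (bW S K K K).re ≤ e * (ε ^ 2 * R ^ 2 / c₀) := by
    have r2 : (e * ε ^ 2 * R) ^ 2 / (bW S K K K).re ≤
        (e * ε ^ 2 * R) ^ 2 / (e * ε ^ 2 * c₀) :=
      div_le_div_of_nonneg_left (sq_nonneg _) (by positivity) hψ
    refine r2.trans_eq ?_
    field_simp
  have r3 : e * ∑ i ∈ Finset.range (a + 1), ((d - 2).choose i : ℝ) * ε ^ (a - i) *
      (qI S w ν i α α).re ≤ e * (2 * ∑ i ∈ Finset.range a, ((d - 2).choose i : ℝ) *
        ε ^ (a - i) * (qI S w ν i xu (cjs xu)).re + ε ^ 2 * R ^ 2 / c₀) := by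
    refine hI'.trans ?_
    linarith
  exact le_of_mul_le_mul_left r3 hee

end Vale.Agent.P281.H624.HKT
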