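import Vale.Agent.P281.H624.HK.Lem

/-!
# P281, project T-HKT, index block (helper624): expansion of `W` in `ε • c + n`
-/

open Set Filter Metric MeasureTheory Vale.Agent.P272.K
open scoped Topology ContDiff ComplexConjugate ComplexOrder Matrix

noncomputable section

namespace Vale.Agent.P281.H624.HKT

open Vale.Agent.P281.H64.TK Vale.Agent.P281.H64.TK.TS Vale.Agent.P272.K.C2
open Vale.Agent.P281.H83.HK Vale.Agent.P281.H624.TS Vale.Agent.P281.H624.HK

variable {d : ℕ}

/-- `(x, y, n, .., n, c, .., c)`, `m` times `n`. -/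
def vm (x y c n : L2 d) (m : ℕ) (l : Fin d) : L2 d :=
  if l.val = 0 then x else if l.val = 1 then y else if l.val < m + 2 then n else c

/-- `(x, y, n, .., n, A, .., A, c, .., c)`, `m` times `n`, `j` times `A`. -/
def bl (x y c n A : L2 d) (m j : ℕ) (l : Fin d) : L2 d :=
  if l.val = 0 then x else if l.val = 1 then y else if l.val < m + 2 then n
    else if l.val < m + j + 2 then A else c

theorem bl_zero (x y c n A : L2 d) (m : ℕ) : bl x y c n A m 0 = vm x y c n m := by
  funext l
  simp only [bl, vm, add_zero]
  split_ifs <;> first | rfl | omega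

theorem bl_step (hW : WLinStmt) (x y c n : L2 d) (ε : ℂ) (m j : ℕ) (hj : m + j + 3 ≤ d) :
    W (bl x y c n (ε • c + n) m (j + 1)) = W (bl x y c n (ε • c + n) (m + 1) j) +
      ε * W (bl x y c n (ε • c + n) m j) := by
  set A := ε • c + n with hA
  set p : Fin d := ⟨m + 2, by omega⟩ with hp
  set p' : Fin d := ⟨m + j + 2, by omega⟩ with hp'
  have e0 : bl x y c n A m (j + 1) = Function.update (bl x y c n A m (j + 1)) p (ε • c + n) := by
    funext l
    by_cases h : l = p
    · subst h
      rw [Function.update_self]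
      simp only [bl, hp]
      rw [if_neg (by omega), if_neg (by omega), if_neg (by omega), if_pos (by omega)]
    · rw [Function.update_of_ne h]
  have e1 : Function.update (bl x y c n A m (j + 1)) p n = bl x y c n A (m + 1) j := by
    funext l
    by_cases h : l = p
    · subst h
      rw [Function.update_self]
      simp only [bl, hp]
      rw [if_neg (by omega), if_neg (by omega), if_pos (by omega)]
    · have h' : l.val ≠ m + 2 := fun h' => h (Fin.ext h')
      rw [Function.update_of_ne h]
      simp only [bl]
      split_ifs <;> first | rfl | omega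
  have e2 : Function.update (bl x y c n A m (j + 1)) p c ∘ Equiv.swap p p' =
      bl x y c n A m j := by
    funext l
    rw [Function.comp_apply]
    by_cases h : l = p
    · rw [h, Equiv.swap_apply_left]
      by_cases hj0 : j = 0
      · have : p' = p := by
          apply Fin.ext
          simp only [hp, hp']
          omega
        rw [this, Function.update_self]
        simp only [bl, hp]
        rw [if_neg (by omega), if_neg (by omega), if_neg (by omega), if_neg (by omega)]
      · have : p' ≠ p := by
          intro h2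
          have := congrArg Fin.val h2
          simp only [hp, hp'] at this
          omega
        rw [Function.update_of_ne this]
        simp only [bl, hp, hp']
        rw [if_neg (by omega), if_neg (by omega), if_neg (by omega), if_pos (by omega),
          if_neg (by omega), if_neg (by omega), if_neg (by omega), if_pos (by omega)]
    · by_cases h1 : l = p'
      · rw [h1, Equiv.swap_apply_right, Function.update_self]
        simp only [bl, hp']
        rw [if_neg (by omega), if_neg (by omega), if_neg (by omega), if_neg (by omega)]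
      · have h' : l.val ≠ m + 2 := fun h' => h (Fin.ext h')
        have h'' : l.val ≠ m + j + 2 := fun h' => h1 (Fin.ext h')
        rw [Equiv.swap_apply_of_ne_of_ne h h1, Function.update_of_ne h]
        simp only [bl]
        split_ifs <;> first | rfl | omega
  have h1 := (hW d (bl x y c n A m (j + 1)) p (ε • c) n 0 1).1
  have h2 := (hW d (bl x y c n A m (j + 1)) p c 0 ε 1).2.1
  have h3 := (hW d (Function.update (bl x y c n A m (j + 1)) p c) p 0 0 0 (Equiv.swap p p')).2.2
  rw [e2] at h3
  conv_lhs => rw [e0]
  rw [h1, h2, e1, ← h3]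
  ring

theorem pascal (V : ℕ → ℂ) (ε : ℂ) (j : ℕ) (m : ℕ) :
    ∑ i ∈ Finset.range (j + 2), ((j + 1).choose i : ℂ) * ε ^ (j + 1 - i) * V (m + i) =
      ∑ i ∈ Finset.range (j + 1), (j.choose i : ℂ) * ε ^ (j - i) * V (m + 1 + i) +
        ε * ∑ i ∈ Finset.range (j + 1), (j.choose i : ℂ) * ε ^ (j - i) * V (m + i) := by
  rw [Finset.sum_range_succ' _ (j + 1)]
  have h1 : ∑ i ∈ Finset.range (j + 1), ((j + 1).choose (i + 1) : ℂ) * ε ^ (j + 1 - (i + 1)) *
      V (m + (i + 1)) = ∑ i ∈ Finset.range (j + 1), (j.choose i : ℂ) * ε ^ (j - i) *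
        V (m + 1 + i) + ∑ i ∈ Finset.range (j + 1), (j.choose (i + 1) : ℂ) * ε ^ (j - i) *
        V (m + 1 + i) := by
    rw [← Finset.sum_add_distrib]
    refine Finset.sum_congr rfl fun i _ => ?_
    rw [Nat.choose_succ_succ, show j + 1 - (i + 1) = j - i by omega,
      show m + (i + 1) = m + 1 + i by omega]
    push_cast
    ring
  rw [h1, add_assoc]
  congr 1
  rw [Finset.sum_range_succ' (fun i => (j.choose i : ℂ) * ε ^ (j - i) * V (m + i)) j,
    Finset.sum_range_succ (fun i => (j.choose (i + 1) : ℂ) * ε ^ (j - i) * V (m + 1 + i)) j,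
    Nat.choose_succ_self, Nat.cast_zero, zero_mul, zero_mul, add_zero, mul_add, Finset.mul_sum]
  congr 1
  · refine Finset.sum_congr rfl fun i hi => ?_
    have hi' := Finset.mem_range.1 hi
    rw [show j - i = (j - (i + 1)) + 1 by omega, show m + 1 + i = m + (i + 1) by omega, pow_succ]
    ring
  · simp only [Nat.choose_zero_right, Nat.cast_one, one_mul, Nat.sub_zero, add_zero]
    rw [pow_succ]
    ring

theorem bl_sum (hW : WLinStmt) (x y c n : L2 d) (ε : ℂ) (j : ℕ) : ∀ m, m + j + 2 ≤ d →
    W (bl x y c n (ε • c + n) m j) =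
      ∑ i ∈ Finset.range (j + 1), (j.choose i : ℂ) * ε ^ (j - i) * W (vm x y c n (m + i)) := by
  induction j with
  | zero =>
    intro m _
    rw [bl_zero]
    simp
  | succ j ih =>
    intro m hm
    rw [bl_step hW x y c n ε m j (by omega), ih (m + 1) (by omega), ih m (by omega),
      pascal (fun i => W (vm x y c n i)) ε j m]

/-- The expansion of `W3`. -/
theorem W3_exp (hW : WLinStmt) (h2 : 2 ≤ d) (x y c n : L2 d) (ε : ℂ) :
    W3 x y (ε • c + n) = ∑ i ∈ Finset.range (d - 2 + 1), ((d - 2).choose i : ℂ) *
      ε ^ (d - 2 - i) * W (vm x y c n i) := by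
  have h := bl_sum hW x y c n ε (d - 2) 0 (by omega)
  have e : bl x y c n (ε • c + n) 0 (d - 2) = abc x y (ε • c + n) := by
    funext l
    have := l.isLt
    simp only [bl, abc]
    split_ifs <;> first | rfl | omega
  rw [e] at h
  rw [W3, h]
  simp only [zero_add]

/-- Exchange of one `n` and one `c`. -/
theorem vm_swap (hW : WLinStmt) (x c n : L2 d) {i : ℕ} (hi : i + 3 ≤ d) :
    W (vm x n c n i) = W (vm x c c n (i + 1)) := by
  set p : Fin d := ⟨1, by omega⟩ with hp
  set p' : Fin d := ⟨i + 2, by omega⟩ with hp'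
  have h3 := (hW d (vm x c c n (i + 1)) p 0 0 0 (Equiv.swap p p')).2.2
  rw [← h3]
  congr 1
  funext l
  rw [Function.comp_apply]
  by_cases h : l = p
  · rw [h, Equiv.swap_apply_left]
    simp only [vm, hp, hp']
    rw [if_neg (by omega), if_pos trivial, if_neg (by omega), if_neg (by omega), if_pos (by omega)]
  · by_cases h1 : l = p'
    · rw [h1, Equiv.swap_apply_right]
      simp only [vm, hp, hp']
      rw [if_neg (by omega), if_neg (by omega), if_neg (by omega), if_neg (by omega),
        if_pos trivial]
    · have h' : l.val ≠ 1 := fun h' => h (Fin.ext h')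
      have h'' : l.val ≠ i + 2 := fun h' => h1 (Fin.ext h')
      rw [Equiv.swap_apply_of_ne_of_ne h h1]
      simp only [vm]
      split_ifs <;> first | rfl | omega

/-- `W` is real. -/
theorem W_cj (a : Fin d → L2 d) : W (fun l => cj (a l)) = conj (W a) := by
  simp only [W, map_mul, map_sum, map_prod, map_inv₀, map_pow, Complex.conj_ofNat, cj_apply,
    map_intCast]

theorem cj_kf {w : Matrix (Fin d) (Fin d) ℂ} (hw : w.IsHermitian) : cj (kf w) = kf w := by
  ext u v
  rw [cj_apply, kf_apply, map_mul, map_div₀, Complex.conj_I, Complex.conj_ofNat, map_sum]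
  simp only [map_sum, map_mul, map_sub, Complex.conj_conj]
  rw [Finset.sum_comm]
  have : ∀ y ∈ (Finset.univ : Finset (Fin d)), ∑ x, conj (w x y) *
      (conj (u x) * v y - conj (v x) * u y) =
      -∑ x, w y x * (u y * conj (v x) - v y * conj (u x)) := by
    intro y _
    rw [← Finset.sum_neg_distrib]
    refine Finset.sum_congr rfl fun x _ => ?_
    have := hw.apply y x
    simp only [Complex.star_def] at this
    rw [this]
    ring
  rw [Finset.sum_congr rfl this, Finset.sum_neg_distrib]
  ring

theorem cj_cj (a : L2 d) : cj (cj a) = a := by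
  ext u v
  simp [cj_apply]

theorem vm_cj (x y : L2 d) {w ν : Matrix (Fin d) (Fin d) ℂ} (hw : w.IsHermitian)
    (hν : ν.IsHermitian) (i : ℕ) :
    W (vm (cj x) (cj y) (kf w) (kf ν) i) = conj (W (vm x y (kf w) (kf ν) i)) := by
  rw [← W_cj]
  congr 1
  funext l
  simp only [vm]
  split_ifs
  · rfl
  · rfl
  · exact (cj_kf hν).symm
  · exact (cj_kf hw).symm

theorem vm_comm (hW : WLinStmt) (h2 : 2 ≤ d) (x y c n : L2 d) (i : ℕ) :
    W (vm x y c n i) = W (vm y x c n i) := by
  set p : Fin d := ⟨0, by omega⟩ with hp
  set p' : Fin d := ⟨1, by omega⟩ with hp'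
  have h3 := (hW d (vm y x c n i) p 0 0 0 (Equiv.swap p p')).2.2
  rw [← h3]
  congr 1
  funext l
  rw [Function.comp_apply]
  by_cases h : l = p
  · rw [h, Equiv.swap_apply_left]
    simp [vm, hp, hp']
  · by_cases h1 : l = p'
    · rw [h1, Equiv.swap_apply_right]
      simp [vm, hp, hp']
    · have h' : l.val ≠ 0 := fun h' => h (Fin.ext h')
      have h'' : l.val ≠ 1 := fun h' => h1 (Fin.ext h')
      rw [Equiv.swap_apply_of_ne_of_ne h h1]
      simp [vm, h', h'']

end Vale.Agent.P281.H624.HKT
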