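import Vale.Agent.P281.H624.HKT.Pt
import Vale.Agent.P281.H624.HK.HI

/-!
# P281, project T-HKT, index block (helper624): the projection to the holomorphic 2-forms, and the
Hodge index inequality for all closed forms
-/

open Set Filter Metric MeasureTheory Vale.Agent.P272.K
open scoped Topology ContDiff ComplexConjugate ComplexOrder Matrix

noncomputable section

namespace Vale.Agent.P281.H624.HKT

open Vale.Agent.P281.H64.TK Vale.Agent.P281.H64.TK.TS Vale.Agent.P272.K.C2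
open Vale.Agent.P281.H83.HK Vale.Agent.P281.H624.TS Vale.Agent.P281.H624.HK

variable {d : ℕ} {E Γ : Type} [TopologicalSpace E] [T2Space E] [Group Γ] [Subsingleton Γ]
    [MulAction Γ E] [ContinuousConstSMul Γ E] {S : Sheets d E Γ}

omit [T2Space E] [Subsingleton Γ] [ContinuousConstSMul Γ E] in
theorem int_norm_le (D : Fin S.N → Cm d → ℂ) : ‖S.int D‖ ≤ rI S (fun i z => ‖D i z‖) := by
  simp only [Sheets.int, rI]
  exact (norm_sum_le _ _).trans (Finset.sum_le_sum fun i _ => norm_integral_le_integral_norm _)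

theorem le_sq (x η : ℝ) (hη : 0 < η) : x ≤ η + η⁻¹ * x ^ 2 := by
  rcases le_total x η with h | h
  · have : 0 ≤ η⁻¹ * x ^ 2 := by positivity
    linarith
  · have h1 : x * η ≤ x ^ 2 := by nlinarith
    have h2 : x = η⁻¹ * (x * η) := by field_simp
    have h3 : η⁻¹ * (x * η) ≤ η⁻¹ * x ^ 2 := mul_le_mul_of_nonneg_left h1 (by positivity)
    linarith

/-- The pairing with a conjugate holomorphic form. -/
def Gm (w t : Matrix (Fin d) (Fin d) ℂ) : Matrix (Fin d) (Fin d) ℂ :=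
  (((d - 2).factorial : ℂ) * w.det * 2) • ((w⁻¹)ᵀ * tᴴ * w⁻¹)

theorem W3_cj (hV : WValStmt) (h2 : 2 ≤ d) {w t : Matrix (Fin d) (Fin d) ℂ} (hw : w.PosDef)
    (ht : tᵀ = -t) {x : L2 d} (hx : ∀ u v, x u v = - x v u) :
    W3 x (cj (tf t)) (kf w) = ∑ j, ∑ k, c20 x j k * Gm w t k j := by
  rw [hV d x (cj (tf t)) w h2 hx (cj_skew (tf_skew ht)) hw, h11_eq, h11_eq, hm_cj, c20_cj, c02_tf,
    c02_cj, c20_tf]
  have e1 : (t.map conj)ᵀ = tᴴ := rfl
  have e2 : (w⁻¹ * c20 x * (w⁻¹)ᵀ * tᴴ).trace = (c20 x * ((w⁻¹)ᵀ * tᴴ * w⁻¹)).trace := by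
    have : w⁻¹ * c20 x * (w⁻¹)ᵀ * tᴴ = w⁻¹ * (c20 x * (w⁻¹)ᵀ * tᴴ) := by
      simp only [Matrix.mul_assoc]
    rw [this, Matrix.trace_mul_comm]
    simp only [Matrix.mul_assoc]
  have e3 : ((0 : Matrix (Fin d) (Fin d) ℂ).map conj) = 0 := by
    ext j k
    simp
  rw [e1, e2, e3]
  have e4 : ∑ j, ∑ k, c20 x j k * Gm w t k j = (((d - 2).factorial : ℂ) * w.det * 2) *
      (c20 x * ((w⁻¹)ᵀ * tᴴ * w⁻¹)).trace := by
    simp only [Gm, Matrix.trace, Matrix.diag, Matrix.mul_apply (M := c20 x), Matrix.smul_apply,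
      smul_eq_mul, Finset.mul_sum]
    refine Finset.sum_congr rfl fun j _ => Finset.sum_congr rfl fun k _ => ?_
    ring
  rw [e4]
  simp only [Matrix.mul_zero, Matrix.zero_mul, Matrix.trace_zero, mul_zero, sub_zero, zero_add,
    add_zero]
  ring

theorem sm_ts (hF : FormsStmt) (h0 : 0 < d) {s : Fin S.N → Cm d → Matrix (Fin d) (Fin d) ℂ}
    (hs : Hol2 S s) (i : Fin S.N) {z : Cm d} (hz : z ∈ ball (0 : Cm d) 3) : MC ∞ (s i) z := by
  have hts : Cl2 S (ts s) := (hF d E Γ S h0).1 s hs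
  have := mc_c20 (hts.smooth i z hz trivial)
  intro j k
  have e := this j k
  simp only [ts, c20_tf] at e
  exact e

/-- The projection to the holomorphic 2-forms. -/
theorem proj [PreconnectedSpace E] (hW : WLinStmt) (hV : WValStmt) (hF : FormsStmt)
    (hS : WStokesStmt) (hT : HTStmt) (h2 : 2 ≤ d)
    {w : Fin S.N → Cm d → Matrix (Fin d) (Fin d) ℂ} (hk : Kah S w) {α : Fin S.N → Cm d → L2 d}
    (h : Cl2 S α) : ∃ s, Hol2 S s ∧ ∀ t, Hol2 S t →
      bW S α (cjs (ts t)) (kw w) = bW S (ts s) (cjs (ts t)) (kw w) := by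
  have h0 : 0 < d := by omega
  obtain ⟨s, hs, hβ⟩ := hT d E Γ S w α h2 hk h
  refine ⟨s, hs, fun t ht => ?_⟩
  have hkw := cl2_kw hF h0 hk
  have hts : Cl2 S (ts s) := (hF d E Γ S h0).1 s hs
  have htt : Cl2 S (ts t) := (hF d E Γ S h0).1 t ht
  have hct : Cl2 S (cjs (ts t)) := (hF d E Γ S h0).2.2 _ htt
  -- bound of the kernel
  have smG : ∀ i, ∀ z ∈ ball (0 : Cm d) 3, MC ∞ (fun y => Gm (w i y) (t i y)) z := by
    intro i z hz
    have hi := (mc_w hk i hz).inv (det_ne hk i hz)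
    have h1 := ((mc_T hi).mul (sm_ts hF h0 ht i hz).conjTranspose).mul hi
    intro j k
    simp only [Gm, Matrix.smul_apply, smul_eq_mul]
    exact ((contDiffAt_const.mul (sm_det hk i hz)).mul contDiffAt_const).mul (h1 j k)
  obtain ⟨C, hC0, hC⟩ : ∃ C : ℝ, 0 ≤ C ∧ ∀ i, ∀ z ∈ closedBall (0 : Cm d) 1, ∀ j k,
      ‖Gm (w i z) (t i z) k j‖ ≤ C := by
    have : ∀ (q : Fin S.N × Fin d × Fin d), ∃ C : ℝ, 0 ≤ C ∧ ∀ z ∈ closedBall (0 : Cm d) 1,
        ‖Gm (w q.1 z) (t q.1 z) q.2.1 q.2.2‖ ≤ C := by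
      intro q
      have hc : ContinuousOn (fun z => Gm (w q.1 z) (t q.1 z) q.2.1 q.2.2) (closedBall 0 1) :=
        (cont_of fun z hz => smG q.1 z hz q.2.1 q.2.2).mono b13
      obtain ⟨C, hC⟩ := (isCompact_closedBall (0 : Cm d) 1).exists_bound_of_continuousOn hc
      exact ⟨max C 0, le_max_right _ _, fun z hz => (hC z hz).trans (le_max_left _ _)⟩
    choose C hC0 hC using this
    exact ⟨∑ q, C q, Finset.sum_nonneg fun q _ => hC0 q, fun i z hz j k =>
      (hC (i, k, j) z hz).trans (Finset.single_le_sum (fun q _ => hC0 q)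
        (Finset.mem_univ (i, k, j)))⟩
  -- the difference
  set D := bW S α (cjs (ts t)) (kw w) - bW S (ts s) (cjs (ts t)) (kw w) with hD
  have key : ∀ η : ℝ, 0 < η → ‖D‖ ≤ C * (rI S (fun _ _ => (d : ℝ) ^ 2) + 1) * η := by
    intro η hη
    obtain ⟨β, b1, b2, b3⟩ := hβ (η ^ 2) (by positivity)
    have hA := cl2_sub h (cl2_d1 b1)
    have e1 : D = bW S (fun i z => (α i z - d1 (β i) z) - ts s i z) (cjs (ts t)) (kw w) := by
      rw [bW_sub hW h2 hA hts hct hkw, bW_sub hW h2 h (cl2_d1 b1) hct hkw,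
        bW_d1 hS h2 b1 hct hkw, sub_zero, hD]
    have hX := cl2_sub hA hts
    have hcont : ∀ i, ContinuousOn (fun z => ‖W3 ((α i z - d1 (β i) z) - ts s i z)
        (cjs (ts t) i z) (kw w i z)‖) (ball 0 3) := fun i => (cont_W3 hX hct hkw i).norm
    have hcb : ∀ i, ContinuousOn (fun z => C * (η * (d : ℝ) ^ 2 +
        η⁻¹ * ∑ j, ∑ k, ‖(c20 (α i z - d1 (β i) z) - s i z) j k‖ ^ 2)) (ball 0 3) := by
      intro i
      refine continuousOn_const.mul (continuousOn_const.add (continuousOn_const.mul ?_))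
      exact cont_fro fun z hz => (mc_c20 (hA.smooth i z hz trivial)).sub (sm_ts hF h0 hs i hz)
    rw [e1, bW]
    refine (int_norm_le _).trans ((rI_mono hcont hcb fun i z hz => ?_).trans ?_)
    · have hzb := b13 hz
      have e2 : W3 ((α i z - d1 (β i) z) - ts s i z) (cjs (ts t) i z) (kw w i z) =
          ∑ j, ∑ k, (c20 (α i z - d1 (β i) z) - s i z) j k * Gm (w i z) (t i z) k j := by
        have := W3_cj hV h2 (hk.posDef i z hzb) (ht.alt i z hzb)
          (x := (α i z - d1 (β i) z) - ts s i z) (hX.alt i z hzb trivial)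
        rw [c20_sub (α i z - d1 (β i) z), show c20 (ts s i z) = s i z from c20_tf _] at this
        exact this
      rw [e2]
      calc ‖∑ j, ∑ k, (c20 (α i z - d1 (β i) z) - s i z) j k * Gm (w i z) (t i z) k j‖
          ≤ ∑ j, ∑ k, ‖(c20 (α i z - d1 (β i) z) - s i z) j k‖ * C := by
            refine (norm_sum_le _ _).trans (Finset.sum_le_sum fun j _ => ?_)
            refine (norm_sum_le _ _).trans (Finset.sum_le_sum fun k _ => ?_)
            rw [norm_mul]
            exact mul_le_mul_of_nonneg_left (hC i z hz j k) (norm_nonneg _)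
        _ ≤ ∑ j : Fin d, ∑ k : Fin d,
            (η + η⁻¹ * ‖(c20 (α i z - d1 (β i) z) - s i z) j k‖ ^ 2) * C :=
            Finset.sum_le_sum fun j _ => Finset.sum_le_sum fun k _ =>
              mul_le_mul_of_nonneg_right (le_sq _ _ hη) hC0
        _ = _ := by
            simp only [← Finset.sum_mul, Finset.sum_add_distrib, Finset.sum_const,
              Finset.card_univ, Fintype.card_fin, ← Finset.mul_sum, nsmul_eq_mul]
            ring
    · have c1 : ∀ i : Fin S.N, ContinuousOn (fun _ : Cm d => η * (d : ℝ) ^ 2) (ball 0 3) :=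
        fun i => continuousOn_const
      have c2 : ∀ i, ContinuousOn (fun z => η⁻¹ *
          ∑ j, ∑ k, ‖(c20 (α i z - d1 (β i) z) - s i z) j k‖ ^ 2) (ball 0 3) := fun i =>
        continuousOn_const.mul (cont_fro fun z hz =>
          (mc_c20 (hA.smooth i z hz trivial)).sub (sm_ts hF h0 hs i hz))
      rw [rI_mul, rI_add c1 c2, rI_mul, rI_mul]
      have e3 : rI S (fun i z => ∑ j, ∑ k, ‖(c20 (α i z - d1 (β i) z) - s i z) j k‖ ^ 2) ≤
          η ^ 2 := b3.le
      have e4 : η⁻¹ * rI S (fun i z => ∑ j, ∑ k,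
          ‖(c20 (α i z - d1 (β i) z) - s i z) j k‖ ^ 2) ≤ η := by
        calc _ ≤ η⁻¹ * η ^ 2 := mul_le_mul_of_nonneg_left e3 (by positivity)
          _ = η := by field_simp
      have e5 := mul_le_mul_of_nonneg_left e4 hC0
      nlinarith
  have hD0 : ‖D‖ ≤ 0 := by
    refine le_of_forall_pos_le_add fun δ hδ => ?_
    set K := C * (rI S (fun _ _ => (d : ℝ) ^ 2) + 1) with hK
    have h1 := key (δ / (|K| + 1)) (by positivity)
    have h3 : K * (δ / (|K| + 1)) ≤ δ := by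
      rw [mul_div_assoc', div_le_iff₀ (by positivity)]
      nlinarith [le_abs_self K]
    linarith
  exact sub_eq_zero.1 (norm_le_zero_iff.1 hD0)

end Vale.Agent.P281.H624.HKT
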