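import Vale.Agent.P281.H624.HKT.Diag

/-!
# P281, project T-HKT, index block (helper624): the coefficients of `W3` at `ε w + ν`
-/

open Set Filter Metric MeasureTheory Vale.Agent.P272.K
open scoped Topology ContDiff ComplexConjugate ComplexOrder Matrix

noncomputable section

namespace Vale.Agent.P281.H624.HKT

open Vale.Agent.P281.H64.TK Vale.Agent.P281.H64.TK.TS Vale.Agent.P272.K.C2
open Vale.Agent.P281.H83.HK Vale.Agent.P281.H624.TS Vale.Agent.P281.H624.HK

variable {d : ℕ}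

/-- `∏_{l ≠ j, k} (X + λ_l)`. -/
def PP (lam : Fin d → ℝ) (j k : Fin d) : Polynomial ℝ :=
  ∏ l ∈ (Finset.univ.erase j).erase k, (Polynomial.X + Polynomial.C (lam l))

theorem prod_coeff_nonneg {lam : Fin d → ℝ} (hl : ∀ l, 0 ≤ lam l) (T : Finset (Fin d)) :
    ∀ m, 0 ≤ (∏ l ∈ T, (Polynomial.X + Polynomial.C (lam l))).coeff m := by
  classical
  induction T using Finset.induction_on with
  | empty =>
    intro m
    rw [Finset.prod_empty, Polynomial.coeff_one]
    split_ifs <;> norm_num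
  | @insert a T ha ih =>
    intro m
    rw [Finset.prod_insert ha, add_mul, Polynomial.coeff_add, Polynomial.coeff_C_mul]
    refine add_nonneg ?_ (mul_nonneg (hl a) (ih m))
    cases m with
    | zero => rw [Polynomial.coeff_X_mul_zero]
    | succ m => rw [Polynomial.coeff_X_mul]; exact ih m

theorem PP_nonneg {lam : Fin d → ℝ} (hl : ∀ l, 0 ≤ lam l) (j k : Fin d) (m : ℕ) :
    0 ≤ (PP lam j k).coeff m := prod_coeff_nonneg hl _ m

theorem PP_low {lam : Fin d → ℝ} {j k : Fin d} {e : ℕ}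
    (hz : e ≤ (((Finset.univ.erase j).erase k).filter fun l => lam l = 0).card) {m : ℕ}
    (hm : m < e) : (PP lam j k).coeff m = 0 := by
  have h1 : (Polynomial.X : Polynomial ℝ) ^ e ∣ PP lam j k := by
    refine (pow_dvd_pow _ hz).trans ?_
    have h2 := Finset.prod_dvd_prod_of_subset _ _
      (fun l => (Polynomial.X + Polynomial.C (lam l) : Polynomial ℝ))
      (Finset.filter_subset (fun l => lam l = 0) ((Finset.univ.erase j).erase k))
    have h3 : ∏ l ∈ ((Finset.univ.erase j).erase k).filter (fun l => lam l = 0),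
        (Polynomial.X + Polynomial.C (lam l) : Polynomial ℝ) =
        Polynomial.X ^ (((Finset.univ.erase j).erase k).filter fun l => lam l = 0).card := by
      rw [← Finset.prod_const]
      refine Finset.prod_congr rfl fun l hl => ?_
      rw [(Finset.mem_filter.1 hl).2, map_zero, add_zero]
    rw [h3] at h2
    exact h2
  exact Polynomial.X_pow_dvd_iff.1 h1 m hm

theorem card_z {lam : Fin d → ℝ} {a : ℕ}
    (hr : (Finset.univ.filter fun l => lam l ≠ 0).card ≤ a) :
    d - a ≤ (Finset.univ.filter fun l => lam l = 0).card := by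
  have h := Finset.card_filter_add_card_filter_not (s := (Finset.univ : Finset (Fin d)))
    (fun l => lam l = 0)
  rw [Finset.card_univ, Fintype.card_fin] at h
  have h' : (Finset.univ.filter fun l => ¬ lam l = 0).card ≤ a := hr
  omega

theorem card_two {lam : Fin d → ℝ} {a : ℕ}
    (hr : (Finset.univ.filter fun l => lam l ≠ 0).card ≤ a) (j k : Fin d) :
    d - a - 2 ≤ (((Finset.univ.erase j).erase k).filter fun l => lam l = 0).card := by
  have h := card_z hr
  rw [Finset.filter_erase, Finset.filter_erase]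
  have h1 := Finset.pred_card_le_card_erase (s := Finset.univ.filter fun l => lam l = 0) (a := j)
  have h2 := Finset.pred_card_le_card_erase
    (s := (Finset.univ.filter fun l => lam l = 0).erase j) (a := k)
  omega

theorem card_one {lam : Fin d → ℝ} {a : ℕ}
    (hr : (Finset.univ.filter fun l => lam l ≠ 0).card ≤ a) (j k : Fin d) (hk : lam k ≠ 0) :
    d - a - 1 ≤ (((Finset.univ.erase j).erase k).filter fun l => lam l = 0).card := by
  have h := card_z hr
  rw [Finset.filter_erase, Finset.filter_erase]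
  have h1 := Finset.pred_card_le_card_erase (s := Finset.univ.filter fun l => lam l = 0) (a := j)
  have h2 : ((Finset.univ.filter fun l => lam l = 0).erase j).erase k =
      (Finset.univ.filter fun l => lam l = 0).erase j := by
    refine Finset.erase_eq_of_notMem fun h3 => hk ?_
    exact (Finset.mem_filter.1 (Finset.mem_of_mem_erase h3)).2
  rw [h2]
  omega

theorem kf_add' (a b : Matrix (Fin d) (Fin d) ℂ) : kf (a + b) = kf a + kf b := by
  ext u v
  rw [add_apply, add_apply, kf_apply, kf_apply, kf_apply, ← mul_add, ← Finset.sum_add_distrib]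
  congr 1
  refine Finset.sum_congr rfl fun j _ => ?_
  rw [← Finset.sum_add_distrib]
  exact Finset.sum_congr rfl fun k _ => by rw [Matrix.add_apply]; ring

theorem kf_smul' (c : ℂ) (a : Matrix (Fin d) (Fin d) ℂ) : kf (c • a) = c • kf a := by
  ext u v
  rw [smul_apply, smul_apply, kf_apply, kf_apply, smul_eq_mul, Finset.mul_sum, Finset.mul_sum,
    Finset.mul_sum]
  refine Finset.sum_congr rfl fun j _ => ?_
  rw [Finset.mul_sum, Finset.mul_sum, Finset.mul_sum]
  exact Finset.sum_congr rfl fun k _ => by rw [Matrix.smul_apply, smul_eq_mul]; ring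

theorem pencil {w ν P : Matrix (Fin d) (Fin d) ℂ} {lam : Fin d → ℝ} (e1 : w = Pᴴ * P)
    (e2 : ν = Pᴴ * dg lam * P) (ε : ℝ) :
    (ε : ℂ) • w + ν = Pᴴ * dg (fun l => ε + lam l) * P := by
  have : dg (fun l => ε + lam l) = (ε : ℂ) • (1 : Matrix (Fin d) (Fin d) ℂ) + dg lam := by
    rw [dg, dg, ← Matrix.diagonal_one, ← Matrix.diagonal_smul, Matrix.diagonal_add]
    congr 1
    funext l
    simp
  rw [this, e1, e2, Matrix.mul_add, Matrix.add_mul, Matrix.mul_smul, mul_one, Matrix.smul_mul]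

theorem pencil_pos {w ν : Matrix (Fin d) (Fin d) ℂ} (hw : w.PosDef) (hν : ν.PosSemidef) {ε : ℝ}
    (hε : 0 < ε) : ((ε : ℂ) • w + ν).PosDef :=
  (hw.smul (by exact_mod_cast hε)).add_posSemidef hν

/-- The coefficients. -/
theorem vm_coeff (hW : WLinStmt) (hV : WValStmt) (h2 : 2 ≤ d) {w ν P Q : Matrix (Fin d) (Fin d) ℂ}
    (hw : w.PosDef) (hν : ν.PosSemidef) (hPQ : P * Q = 1) (hQP : Q * P = 1) {lam : Fin d → ℝ}
    (e1 : w = Pᴴ * P) (e2 : ν = Pᴴ * dg lam * P) (hl : ∀ l, 0 ≤ lam l)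
    {x y : L2 d} (hx : ∀ u v, x u v = - x v u) (hy : ∀ u v, y u v = - y v u) {i : ℕ}
    (hi : i ≤ d - 2) :
    ((d - 2).choose i : ℂ) * W (vm x y (kf w) (kf ν) i) = ∑ j, ∑ k ∈ Finset.univ.erase j,
      ((d - 2).factorial : ℂ) * (conj P.det * P.det) * tt Q x y j k *
        (((PP lam j k).coeff (d - 2 - i) : ℝ) : ℂ) := by
  classical
  set p : Polynomial ℂ := ∑ i ∈ Finset.range (d - 2 + 1),
    Polynomial.C (((d - 2).choose i : ℂ) * W (vm x y (kf w) (kf ν) i)) *
      Polynomial.X ^ (d - 2 - i) with hp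
  set q : Polynomial ℂ := ∑ j, ∑ k ∈ Finset.univ.erase j,
    Polynomial.C (((d - 2).factorial : ℂ) * (conj P.det * P.det) * tt Q x y j k) *
      (PP lam j k).map Complex.ofRealHom with hq
  have hev : ∀ ε : ℝ, 0 < ε → p.eval (ε : ℂ) = q.eval (ε : ℂ) := by
    intro ε hε
    have h1 : p.eval (ε : ℂ) = W3 x y (kf ((ε : ℂ) • w + ν)) := by
      rw [kf_add', kf_smul', W3_exp hW h2, hp, Polynomial.eval_finsetSum]
      refine Finset.sum_congr rfl fun i _ => ?_
      rw [Polynomial.eval_mul, Polynomial.eval_C, Polynomial.eval_pow, Polynomial.eval_X]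
      ring
    have h3 := pencil_pos hw hν hε
    rw [pencil e1 e2 ε] at h3
    rw [h1, pencil e1 e2 ε, W3_diag hV h2 hPQ hQP (fun l => by have := hl l; linarith) h3 hx hy,
      hq, Polynomial.eval_finsetSum]
    refine Finset.sum_congr rfl fun j _ => ?_
    rw [Polynomial.eval_finsetSum]
    refine Finset.sum_congr rfl fun k _ => ?_
    rw [Polynomial.eval_mul, Polynomial.eval_C, Polynomial.eval_map]
    have h4 := Polynomial.eval₂_at_apply (p := PP lam j k) Complex.ofRealHom ε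
    have h5 : Complex.ofRealHom ε = (ε : ℂ) := rfl
    rw [h5] at h4
    rw [h4, PP, Polynomial.eval_prod]
    simp only [Polynomial.eval_add, Polynomial.eval_X, Polynomial.eval_C, map_prod]
    rfl
  have hpq : p = q := by
    refine Polynomial.eq_of_infinite_eval_eq p q ?_
    have h1 : ((fun ε : ℝ => (ε : ℂ)) '' Set.Ioi 0).Infinite :=
      (Set.Ioi_infinite (0 : ℝ)).image Complex.ofReal_injective.injOn
    refine h1.mono ?_
    rintro _ ⟨ε, hε, rfl⟩
    exact hev ε hε
  have hc := congrArg (fun r : Polynomial ℂ => r.coeff (d - 2 - i)) hpq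
  simp only [hp, hq, Polynomial.finsetSum_coeff, Polynomial.coeff_C_mul,
    Polynomial.coeff_X_pow, Polynomial.coeff_map] at hc
  rw [Finset.sum_eq_single i] at hc
  · rw [if_pos rfl, mul_one] at hc
    exact hc
  · intro b hb hbi
    have := Finset.mem_range.1 hb
    rw [if_neg (by omega), mul_zero]
  · intro h
    exact absurd (Finset.mem_range.2 (by omega)) h

theorem choose_ne (h : 2 ≤ d) {i : ℕ} (hi : i ≤ d - 2) : ((d - 2).choose i : ℂ) ≠ 0 := by
  exact_mod_cast (Nat.choose_pos hi).ne'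

/-- At most `a` factors `ν`. -/
theorem vm_zero (hW : WLinStmt) (hV : WValStmt) (h2 : 2 ≤ d) {w ν : Matrix (Fin d) (Fin d) ℂ}
    (hw : w.PosDef) (hν : ν.PosSemidef) {a : ℕ} (hr : ν.rank ≤ a)
    {x y : L2 d} (hx : ∀ u v, x u v = - x v u) (hy : ∀ u v, y u v = - y v u) {i : ℕ}
    (hi : i ≤ d - 2) (hai : a < i) : W (vm x y (kf w) (kf ν) i) = 0 := by
  obtain ⟨P, Q, lam, p1, p2, p3, p4, p5, p6⟩ := sim hw hν
  have h := vm_coeff hW hV h2 hw hν p1 p2 p3 p4 p5 hx hy hi
  refine (mul_eq_zero.1 (h.trans ?_)).resolve_left (choose_ne h2 hi)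
  refine Finset.sum_eq_zero fun j _ => Finset.sum_eq_zero fun k _ => ?_
  rw [PP_low (card_two (a := a) (by rw [p6]; exact hr) j k) (by omega), Complex.ofReal_zero,
    mul_zero]

theorem c20_cj (a : L2 d) : c20 (cj a) = (c02 a).map conj := by
  ext j k
  simp only [c20, c02, Matrix.of_apply, Matrix.map_apply, cj_apply, map_sub, map_add, map_mul,
    map_div₀, Complex.conj_I, Complex.conj_ofNat]
  ring

theorem c02_cj (a : L2 d) : c02 (cj a) = (c20 a).map conj := by
  ext j k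
  simp only [c20, c02, Matrix.of_apply, Matrix.map_apply, cj_apply, map_sub, map_add, map_mul,
    map_div₀, Complex.conj_I, Complex.conj_ofNat]
  ring

theorem tf_skew {v : Matrix (Fin d) (Fin d) ℂ} (hv : vᵀ = -v) (s t : Cm d) :
    tf v s t = - tf v t s := by
  rw [tf_apply, tf_apply, Finset.sum_comm, ← Finset.sum_neg_distrib]
  refine Finset.sum_congr rfl fun j _ => ?_
  rw [← Finset.sum_neg_distrib]
  refine Finset.sum_congr rfl fun k _ => ?_
  have := congrFun (congrFun hv j) k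
  rw [Matrix.transpose_apply, Matrix.neg_apply] at this
  rw [this]
  ring

theorem cj_skew {a : L2 d} (h : ∀ u v, a u v = - a v u) (u v : Cm d) :
    cj a u v = - cj a v u := by
  rw [cj_apply, cj_apply, h u v, map_neg]

theorem kf_skew (w : Matrix (Fin d) (Fin d) ℂ) (u v : Cm d) : kf w u v = - kf w v u := by
  rw [kf_apply, kf_apply, ← mul_neg, ← Finset.sum_neg_distrib]
  congr 1
  refine Finset.sum_congr rfl fun j _ => ?_
  rw [← Finset.sum_neg_distrib]
  exact Finset.sum_congr rfl fun k _ => by ring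

theorem conj_mul_self_nonneg (z : ℂ) : 0 ≤ conj z * z := by
  rw [Complex.conj_mul']
  exact_mod_cast sq_nonneg (‖z‖ : ℝ)

/-- Positivity on the `(2,0)`-forms. -/
theorem vm_pos20 (hW : WLinStmt) (hV : WValStmt) (h2 : 2 ≤ d) {w ν : Matrix (Fin d) (Fin d) ℂ}
    (hw : w.PosDef) (hν : ν.PosSemidef) {v : Matrix (Fin d) (Fin d) ℂ} (hv : vᵀ = -v) {i : ℕ}
    (hi : i ≤ d - 2) : 0 ≤ W (vm (tf v) (cj (tf v)) (kf w) (kf ν) i) := by
  obtain ⟨P, Q, lam, p1, p2, p3, p4, p5, p6⟩ := sim hw hν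
  have h := vm_coeff hW hV h2 hw hν p1 p2 p3 p4 p5 (tf_skew hv) (cj_skew (tf_skew hv)) hi
  have hc : (0 : ℂ) < ((d - 2).choose i : ℂ) := by exact_mod_cast Nat.choose_pos hi
  have h1 : 0 ≤ ((d - 2).choose i : ℂ) * W (vm (tf v) (cj (tf v)) (kf w) (kf ν) i) := by
    rw [h]
    refine Finset.sum_nonneg fun j _ => Finset.sum_nonneg fun k _ => ?_
    refine mul_nonneg (mul_nonneg (mul_nonneg ?_ (conj_mul_self_nonneg _)) ?_) ?_
    · exact_mod_cast Nat.zero_le _
    · have e1 : (Qᵀ * (c02 (cj (tf v)))ᵀ * Q) = (Qᴴ * c20 (tf v) * Qᴴᵀ)ᴴ := by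
        have e2 : Qᴴᵀᴴ = Qᵀ := by
          ext a b
          simp [Matrix.conjTranspose_apply]
        rw [c02_cj, c20_tf, Matrix.conjTranspose_mul, Matrix.conjTranspose_mul,
          Matrix.conjTranspose_conjTranspose, ← Matrix.mul_assoc, e2]
        rfl
      rw [tt, hm_tf, hm_cj, e1, c02_tf, Matrix.conjTranspose_apply]
      simp only [Matrix.mul_zero, Matrix.zero_mul, Matrix.zero_apply, Matrix.transpose_zero,
        mul_zero, sub_zero, zero_add, add_zero, Complex.star_def]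
      rw [mul_comm ((Qᴴ * c20 (tf v) * Qᴴᵀ) j k)]
      exact mul_nonneg (by norm_num) (conj_mul_self_nonneg _)
    · exact_mod_cast PP_nonneg p5 j k _
  have h3 := mul_nonneg (inv_nonneg.2 hc.le) h1
  rwa [← mul_assoc, inv_mul_cancel₀ hc.ne', one_mul] at h3

theorem conj_dg {P Q : Matrix (Fin d) (Fin d) ℂ} (hPQ : P * Q = 1) (m : Fin d → ℝ) :
    Qᴴ * (Pᴴ * dg m * P) * Q = dg m := by
  have : Qᴴ * (Pᴴ * dg m * P) * Q = (Qᴴ * Pᴴ) * dg m * (P * Q) := by
    simp only [Matrix.mul_assoc]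
  rw [this, ← Matrix.conjTranspose_mul, hPQ, Matrix.conjTranspose_one, one_mul, mul_one]

theorem tt_kf {P Q : Matrix (Fin d) (Fin d) ℂ} (hPQ : P * Q = 1) (m : Fin d → ℝ) (x : L2 d)
    {j k : Fin d} (hk : k ≠ j) :
    tt Q x (kf (Pᴴ * dg m * P)) j k = (Qᴴ * hm x * Q) j j * (m k : ℂ) := by
  rw [tt, hm_kf, conj_dg hPQ, c20_kf, c02_kf]
  have h1 : dg m k j = 0 := by rw [dg, Matrix.diagonal_apply_ne _ hk]
  have h2 : dg m k k = (m k : ℂ) := by rw [dg, Matrix.diagonal_apply_eq]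
  rw [h1, h2]
  simp

/-- At most `a` factors `ν`, the second form counted. -/
theorem vm_zero' (hW : WLinStmt) (hV : WValStmt) (h2 : 2 ≤ d) {w ν : Matrix (Fin d) (Fin d) ℂ}
    (hw : w.PosDef) (hν : ν.PosSemidef) {a : ℕ} (hr : ν.rank ≤ a) (ha : a + 2 ≤ d)
    {x : L2 d} (hx : ∀ u v, x u v = - x v u) {i : ℕ}
    (hi : i ≤ d - 2) (hai : a ≤ i) : W (vm x (kf ν) (kf w) (kf ν) i) = 0 := by
  obtain ⟨P, Q, lam, p1, p2, p3, p4, p5, p6⟩ := sim hw hν
  have h := vm_coeff hW hV h2 hw hν p1 p2 p3 p4 p5 hx (kf_skew ν) hi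
  refine (mul_eq_zero.1 (h.trans ?_)).resolve_left (choose_ne h2 hi)
  refine Finset.sum_eq_zero fun j _ => Finset.sum_eq_zero fun k hk => ?_
  rw [p4, tt_kf p1 lam x (Finset.mem_erase.1 hk).1]
  by_cases h0 : lam k = 0
  · rw [h0]
    simp
  · rw [PP_low (card_one (a := a) (by rw [p6]; exact hr) j k h0) (by omega), Complex.ofReal_zero,
      mul_zero]

/-- Positivity on `w` and `ν`. -/
theorem vm_pos11 (hW : WLinStmt) (hV : WValStmt) (h2 : 2 ≤ d) {w ν : Matrix (Fin d) (Fin d) ℂ}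
    (hw : w.PosDef) (hν : ν.PosSemidef) {A B : Matrix (Fin d) (Fin d) ℂ} (hA : A = w ∨ A = ν)
    (hB : B = w ∨ B = ν) {i : ℕ} (hi : i ≤ d - 2) :
    0 ≤ W (vm (kf A) (kf B) (kf w) (kf ν) i) := by
  obtain ⟨P, Q, lam, p1, p2, p3, p4, p5, p6⟩ := sim hw hν
  have h := vm_coeff hW hV h2 hw hν p1 p2 p3 p4 p5 (kf_skew A) (kf_skew B) hi
  have h0 : ∀ M : Matrix (Fin d) (Fin d) ℂ, M = w ∨ M = ν → ∃ m : Fin d → ℝ, (∀ l, 0 ≤ m l) ∧
      M = Pᴴ * dg m * P := by
    rintro M (rfl | rfl)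
    · refine ⟨fun _ => 1, fun _ => zero_le_one, ?_⟩
      have : dg (fun _ : Fin d => (1 : ℝ)) = 1 := by
        rw [dg, ← Matrix.diagonal_one]
        simp
      rw [this, mul_one, p3]
    · exact ⟨lam, p5, p4⟩
  obtain ⟨m, m1, m2⟩ := h0 A hA
  obtain ⟨m', m1', m2'⟩ := h0 B hB
  have hc : (0 : ℂ) < ((d - 2).choose i : ℂ) := by exact_mod_cast Nat.choose_pos hi
  have h1 : 0 ≤ ((d - 2).choose i : ℂ) * W (vm (kf A) (kf B) (kf w) (kf ν) i) := by
    rw [h]
    refine Finset.sum_nonneg fun j _ => Finset.sum_nonneg fun k hk => ?_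
    refine mul_nonneg (mul_nonneg (mul_nonneg ?_ (conj_mul_self_nonneg _)) ?_) ?_
    · exact_mod_cast Nat.zero_le _
    · rw [m2', tt_kf p1 m' _ (Finset.mem_erase.1 hk).1, hm_kf, m2, conj_dg p1, dg,
        Matrix.diagonal_apply_eq]
      exact_mod_cast mul_nonneg (m1 j) (m1' k)
    · exact_mod_cast PP_nonneg p5 j k _
  have h3 := mul_nonneg (inv_nonneg.2 hc.le) h1
  rwa [← mul_assoc, inv_mul_cancel₀ hc.ne', one_mul] at h3

end Vale.Agent.P281.H624.HKT
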